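import Mathlib
import Vale.Agent.P078.Type3.Comp.Sum

/-! The walk of the high columns of one channel: its paths, the record weight of a path, and the
weight of a first record. All sums over paths are written as functionals of the end point, the
density and the highest earlier level. -/

noncomputable section

open scoped ComplexOrder
open Classical

set_option linter.unusedSectionVars false

namespace Vale.Agent.P078.T3.Walk

open Vale.Agent.P078.T3.Comp (lsum)

universe u v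

variable {M : Type u} [CStarAlgebra M] [PartialOrder M] [StarOrderedRing M]
  {Ω : Type v} [TopologicalSpace Ω] [CompactSpace Ω] [T2Space Ω]

/-- the soft indicator of `U` being a record over `m` -/
def rho (G U m : ℝ) : ℝ := max 0 (min 1 (U / (G * m) - 1))

lemma rho_nonneg (G U m : ℝ) : 0 ≤ rho G U m := le_max_left _ _

lemma rho_le_one (G U m : ℝ) : rho G U m ≤ 1 := max_le zero_le_one (min_le_left _ _)

lemma rho_scale {D : ℝ} (hD : 0 < D) (G U m : ℝ) : rho G (D * U) (D * m) = rho G U m := by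
  simp only [rho]
  rw [mul_left_comm G D m, mul_div_mul_left _ _ hD.ne']

lemma lt_of_rho_ne {G U m : ℝ} (hG : 0 < G) (hm : 0 < m) (h : rho G U m ≠ 0) : G * m < U := by
  by_contra hc
  refine h (max_eq_left ((min_le_right _ _).trans (sub_nonpos.2 ?_)))
  exact (div_le_one (mul_pos hG hm)).2 (not_lt.1 hc)

lemma le_of_rho_ne_one {G U m : ℝ} (hG : 0 < G) (hm : 0 < m) (h : rho G U m ≠ 1) :
    U ≤ 2 * G * m := by
  by_contra hc
  have h1 : 1 ≤ U / (G * m) - 1 := by
    rw [le_sub_iff_add_le, le_div_iff₀ (mul_pos hG hm)]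
    linarith [not_le.1 hc]
  exact h (by rw [rho, min_eq_left h1, max_eq_right zero_le_one])

/-- below a level which is already passed, only the other levels matter -/
lemma rho_max {G U a b : ℝ} (hG : 0 < G) (ha : 0 < a) (hb : 0 < b) (h : rho G U a = 1) :
    rho G U (max a b) = rho G U b := by
  rcases le_total b a with hba | hab
  · rw [max_eq_left hba, h]
    refine le_antisymm ?_ (rho_le_one _ _ _)
    have hU : 0 ≤ U := by
      by_contra hc
      have : U / (G * a) ≤ 0 := div_nonpos_of_nonpos_of_nonneg (le_of_not_ge hc) (by positivity)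
      rw [rho, max_eq_left ((min_le_right _ _).trans (by linarith))] at h
      exact zero_ne_one h
    rw [← h]
    refine max_le_max le_rfl (min_le_min le_rfl (sub_le_sub_right ?_ _))
    exact div_le_div_of_nonneg_left hU (by positivity) (mul_le_mul_of_nonneg_left hba hG.le)
  · rw [max_eq_right hab]

/-- one channel, normalised: the off-diagonal part, the levels and the cutoff -/
structure W (T : SMasa M Ω) where
  N : GOp T Unit Unit
  Λ : C(Ω, ℝ)
  μ : ℝ
  G : ℝ
  μ_pos : 0 < μ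
  G_ge : 2 ≤ G
  N_nonneg : ∀ t ∈ N, 0 ≤ t.coef
  start : ∀ t ∈ N, ∀ b, t.coef b * t.g.ran b ≠ 0 → μ ≤ Λ b

namespace W

variable {T : SMasa M Ω} (P : W T)

lemma G_pos : 0 < P.G := lt_of_lt_of_le two_pos P.G_ge

/-- the levels, kept away from zero -/
def Λp : C(Ω, ℝ) := ⟨fun b => max (P.Λ b) P.μ, by fun_prop⟩

lemma Λp_ge (b : Ω) : P.μ ≤ P.Λp b := le_max_right _ _

lemma Λp_pos (b : Ω) : 0 < P.Λp b := P.μ_pos.trans_le (P.Λp_ge b)

/-- a path, seen from its start -/
structure Path where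
  g : GElt T
  cw : C(Ω, ℝ)
  mx : C(Ω, ℝ)
  keep : C(Ω, ℝ)

/-- the record weight of the end of a path -/
def rec' (s : Path (T := T)) : C(Ω, ℝ) :=
  ⟨fun b => rho P.G (P.Λ (s.g.toDom b) * s.g.dens b) (max (s.mx b) P.μ), by
    have hne : ∀ b, P.G * max (s.mx b) P.μ ≠ 0 := fun b =>
      (mul_pos P.G_pos (P.μ_pos.trans_le (le_max_right _ _))).ne'
    unfold rho
    fun_prop (disch := exact hne)⟩

/-- the paths with `n + 1` steps -/
def paths : ℕ → List (Path (T := T))
  | 0 => P.N.map fun t => ⟨t.g, t.coef, P.Λp, 1⟩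
  | n + 1 => (paths n).flatMap fun s => P.N.map fun v =>
      ⟨s.g.mul v.g, s.cw * v.coef.comp s.g.toDom,
        ⟨fun b => max (s.mx b) (P.Λ (s.g.toDom b) * s.g.dens b), by fun_prop⟩,
        s.keep * (1 - P.rec' s)⟩

/-- the sum over all paths -/
def walk (n : ℕ) (F : Ω → ℝ → ℝ → ℝ) (b : Ω) : ℝ :=
  lsum (P.paths n) fun s => s.cw b * s.g.ran b * F (s.g.toDom b) (s.g.dens b) (s.mx b)

/-- the sum over all paths without an earlier record -/
def kwalk (n : ℕ) (F : Ω → ℝ → ℝ → ℝ) (b : Ω) : ℝ :=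
  lsum (P.paths n) fun s => s.cw b * s.g.ran b * s.keep b * F (s.g.toDom b) (s.g.dens b) (s.mx b)

/-- the record weight as a function of the end -/
def R (a : Ω) (D m : ℝ) : ℝ := rho P.G (P.Λ a * D) m

/-- one more step -/
def step (F : Ω → ℝ → ℝ → ℝ) (a : Ω) (D m : ℝ) : ℝ :=
  lsum P.N fun v =>
    v.coef a * v.g.ran a * F (v.g.toDom a) (D * v.g.dens a) (max m (P.Λ a * D))

/-- one more step without a record -/
def kstep (F : Ω → ℝ → ℝ → ℝ) (a : Ω) (D m : ℝ) : ℝ := (1 - P.R a D m) * P.step F a D m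

/-- the record operator with `n + 1` steps -/
def Dop (n : ℕ) : GOp T Unit Unit :=
  (P.paths n).map fun s => ⟨(), (), P.rec' s * s.cw, s.g⟩

/-- the first record operator with `n + 1` steps -/
def Cop (n : ℕ) : GOp T Unit Unit :=
  (P.paths n).map fun s => ⟨(), (), P.rec' s * s.keep * s.cw, s.g⟩

/-- all records with at most `n` steps -/
def Hsum (n : ℕ) : GOp T Unit Unit := (List.range n).flatMap P.Dop

/-- all first records with at most `n` steps -/
def Csum (n : ℕ) : GOp T Unit Unit := (List.range n).flatMap P.Cop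

lemma paths_facts : ∀ n, ∀ s ∈ P.paths n, ∀ b,
    0 ≤ s.cw b ∧ P.Λp b ≤ s.mx b ∧ 0 ≤ s.keep b ∧ s.keep b ≤ 1 := by
  intro n
  induction n with
  | zero =>
    intro s hs b
    obtain ⟨t, ht, rfl⟩ := List.mem_map.1 hs
    exact ⟨P.N_nonneg t ht b, le_rfl, zero_le_one, le_rfl⟩
  | succ n ih =>
    intro s hs b
    obtain ⟨w, hw, hs⟩ := List.mem_flatMap.1 hs
    obtain ⟨v, hv, rfl⟩ := List.mem_map.1 hs
    obtain ⟨h1, h2, h3, h4⟩ := ih w hw b
    have r0 : 0 ≤ 1 - P.rec' w b := sub_nonneg.2 (rho_le_one _ _ _)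
    have r1 : 1 - P.rec' w b ≤ 1 := sub_le_self _ (rho_nonneg _ _ _)
    exact ⟨mul_nonneg h1 (P.N_nonneg v hv _), h2.trans (le_max_left _ _), mul_nonneg h3 r0,
      mul_le_one₀ h4 r0 r1⟩

lemma rec'_apply {n : ℕ} {s : Path (T := T)} (hs : s ∈ P.paths n) (b : Ω) :
    P.rec' s b = P.R (s.g.toDom b) (s.g.dens b) (s.mx b) := by
  show rho _ _ (max (s.mx b) P.μ) = rho _ _ (s.mx b)
  rw [max_eq_left ((P.Λp_ge b).trans (P.paths_facts n s hs b).2.1)]

lemma walk_zero (F : Ω → ℝ → ℝ → ℝ) (b : Ω) :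
    P.walk 0 F b
      = lsum P.N fun t => t.coef b * t.g.ran b * F (t.g.toDom b) (t.g.dens b) (P.Λp b) := by
  rw [walk, paths, Comp.lsum_map]

lemma kwalk_zero (F : Ω → ℝ → ℝ → ℝ) (b : Ω) : P.kwalk 0 F b = P.walk 0 F b := by
  rw [kwalk, walk, paths, Comp.lsum_map, Comp.lsum_map]
  simp

lemma walk_succ (n : ℕ) (F : Ω → ℝ → ℝ → ℝ) (b : Ω) :
    P.walk (n + 1) F b = P.walk n (P.step F) b := by
  rw [walk, walk, paths, Comp.lsum_flatMap]
  refine Comp.lsum_congr fun s _ => ?_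
  rw [Comp.lsum_map, step, ← Comp.lsum_mul]
  refine Comp.lsum_congr fun v _ => ?_
  simp only [GElt.mul, ContinuousMap.mul_apply, ContinuousMap.comp_apply, ContinuousMap.coe_mk]
  ring

lemma kwalk_succ (n : ℕ) (F : Ω → ℝ → ℝ → ℝ) (b : Ω) :
    P.kwalk (n + 1) F b = P.kwalk n (P.kstep F) b := by
  rw [kwalk, kwalk, paths, Comp.lsum_flatMap]
  refine Comp.lsum_congr fun s hs => ?_
  rw [Comp.lsum_map, kstep, step, ← mul_assoc, ← Comp.lsum_mul]
  refine Comp.lsum_congr fun v _ => ?_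
  simp only [GElt.mul, ContinuousMap.mul_apply, ContinuousMap.comp_apply, ContinuousMap.coe_mk,
    ContinuousMap.sub_apply, ContinuousMap.one_apply, P.rec'_apply hs]
  ring

lemma walk_le {n : ℕ} {F F' : Ω → ℝ → ℝ → ℝ}
    (h : ∀ a D m, 0 < D → 0 < m → F a D m ≤ F' a D m) (b : Ω) :
    P.walk n F b ≤ P.walk n F' b :=
  Comp.lsum_le fun s hs => mul_le_mul_of_nonneg_left
    (h _ _ _ (s.g.dens_pos b) ((P.Λp_pos b).trans_le (P.paths_facts n s hs b).2.1))
    (mul_nonneg (P.paths_facts n s hs b).1 (idem_nonneg s.g.ran_idem b))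

lemma kwalk_le {n : ℕ} {F F' : Ω → ℝ → ℝ → ℝ}
    (h : ∀ a D m, 0 < D → 0 < m → F a D m ≤ F' a D m) (b : Ω) :
    P.kwalk n F b ≤ P.kwalk n F' b :=
  Comp.lsum_le fun s hs => mul_le_mul_of_nonneg_left
    (h _ _ _ (s.g.dens_pos b) ((P.Λp_pos b).trans_le (P.paths_facts n s hs b).2.1))
    (mul_nonneg (mul_nonneg (P.paths_facts n s hs b).1 (idem_nonneg s.g.ran_idem b))
      (P.paths_facts n s hs b).2.2.1)

lemma walk_congr {n : ℕ} {F F' : Ω → ℝ → ℝ → ℝ}
    (h : ∀ a D m, 0 < D → 0 < m → F a D m = F' a D m) (b : Ω) :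
    P.walk n F b = P.walk n F' b :=
  le_antisymm (P.walk_le (fun a D m hD hm => (h a D m hD hm).le) b)
    (P.walk_le (fun a D m hD hm => (h a D m hD hm).ge) b)

lemma kwalk_congr {n : ℕ} {F F' : Ω → ℝ → ℝ → ℝ}
    (h : ∀ a D m, 0 < D → 0 < m → F a D m = F' a D m) (b : Ω) :
    P.kwalk n F b = P.kwalk n F' b :=
  le_antisymm (P.kwalk_le (fun a D m hD hm => (h a D m hD hm).le) b)
    (P.kwalk_le (fun a D m hD hm => (h a D m hD hm).ge) b)

lemma walk_add (n : ℕ) (F F' : Ω → ℝ → ℝ → ℝ) (b : Ω) :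
    P.walk n (fun a D m => F a D m + F' a D m) b = P.walk n F b + P.walk n F' b := by
  simp only [walk, mul_add, Comp.lsum_add]

lemma kwalk_add (n : ℕ) (F F' : Ω → ℝ → ℝ → ℝ) (b : Ω) :
    P.kwalk n (fun a D m => F a D m + F' a D m) b = P.kwalk n F b + P.kwalk n F' b := by
  simp only [kwalk, mul_add, Comp.lsum_add]

lemma walk_smul (n : ℕ) (c : ℝ) (F : Ω → ℝ → ℝ → ℝ) (b : Ω) :
    P.walk n (fun a D m => c * F a D m) b = c * P.walk n F b := by
  rw [walk, walk, ← Comp.lsum_mul]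
  exact Comp.lsum_congr fun s _ => by ring

lemma kwalk_smul (n : ℕ) (c : ℝ) (F : Ω → ℝ → ℝ → ℝ) (b : Ω) :
    P.kwalk n (fun a D m => c * F a D m) b = c * P.kwalk n F b := by
  rw [kwalk, kwalk, ← Comp.lsum_mul]
  exact Comp.lsum_congr fun s _ => by ring

/-- the action of the record operators on an arbitrary function -/
lemma lsum_Dop (n : ℕ) (f : Ω → ℝ) (b : Ω) :
    lsum (P.Dop n) (fun t => t.coef b * t.g.ran b * f (t.g.toDom b))
      = P.walk n (fun a D m => P.R a D m * f a) b := by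
  rw [Dop, Comp.lsum_map, walk]
  refine Comp.lsum_congr fun s hs => ?_
  simp only [ContinuousMap.mul_apply, P.rec'_apply hs]
  ring

lemma lsum_Cop (n : ℕ) (f : Ω → ℝ) (b : Ω) :
    lsum (P.Cop n) (fun t => t.coef b * t.g.ran b * f (t.g.toDom b))
      = P.kwalk n (fun a D m => P.R a D m * f a) b := by
  rw [Cop, Comp.lsum_map, kwalk]
  refine Comp.lsum_congr fun s hs => ?_
  simp only [ContinuousMap.mul_apply, P.rec'_apply hs]
  ring

end W

end Vale.Agent.P078.T3.Walk
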