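import Mathlib
import Vale.Agent.P078.Type3.Walk.Defs

/-! The two identities of the walk: a record is a first record followed by the records of the
rest, and above twice the cutoff the record operators satisfy the recursion of the powers. -/

noncomputable section

open scoped ComplexOrder
open Classical

set_option linter.unusedSectionVars false

namespace Vale.Agent.P078.T3.Walk

open Vale.Agent.P078.T3.Comp (lsum)

universe u v

variable {M : Type u} [CStarAlgebra M] [PartialOrder M] [StarOrderedRing M]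
  {Ω : Type v} [TopologicalSpace Ω] [CompactSpace Ω] [T2Space Ω] {T : SMasa M Ω}

/-- the entry of an unlabelled operator -/
def k1 (S : GOp T Unit Unit) (b y : Ω) : ℝ := S.ker (b, ()) (y, ())

lemma k1_eq (S : GOp T Unit Unit) (b y : Ω) :
    k1 S b y
      = lsum S fun t => t.coef b * t.g.ran b * (if t.g.toDom b = y then 1 else 0) := by
  rw [k1, Comp.ker_eq]
  refine Comp.lsum_congr fun t _ => ?_
  by_cases h : t.g.toDom b = y <;> simp [Comp.ent, h]

lemma k1_mul (S R : GOp T Unit Unit) (b y : Ω) :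
    k1 (S.mul R) b y = lsum S fun s => s.coef b * s.g.ran b * k1 R (s.g.toDom b) y := by
  rw [k1_eq, Comp.lsum_gmul_unit]
  refine Comp.lsum_congr fun s _ => ?_
  rw [k1_eq, ← Comp.lsum_mul]
  refine Comp.lsum_congr fun t _ => ?_
  simp only [Comp.comp, GElt.mul, ContinuousMap.mul_apply, ContinuousMap.comp_apply]
  by_cases h : t.g.toDom (s.g.toDom b) = y <;> simp [h] <;> ring

lemma lsum_range {α : Type*} (L : ℕ → List α) (n : ℕ) (F : α → ℝ) :
    lsum ((List.range n).flatMap L) F = ∑ k ∈ Finset.range n, lsum (L k) F := by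
  induction n with
  | zero => rfl
  | succ n ih =>
    rw [List.range_succ, List.flatMap_append, Comp.lsum_append, ih, Finset.sum_range_succ]
    simp [Comp.lsum]

lemma k1_range (L : ℕ → GOp T Unit Unit) (n : ℕ) (b y : Ω) :
    k1 ((List.range n).flatMap L) b y = ∑ k ∈ Finset.range n, k1 (L k) b y := by
  simp only [k1, Comp.ker_eq, lsum_range]

namespace W

variable (P : W T)

/-- rescaling of the density and of the earlier levels -/
def shift (F : Ω → ℝ → ℝ → ℝ) (d : ℝ) (a : Ω) (D m : ℝ) : ℝ := F a (d * D) (d * m)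

/-- a step in front -/
def cons (F : Ω → ℝ → ℝ → ℝ) (c d : ℝ) (a : Ω) (D m : ℝ) : ℝ := F a (d * D) (max c (d * m))

lemma R_nonneg (a : Ω) (D m : ℝ) : 0 ≤ P.R a D m := rho_nonneg _ _ _

lemma R_shift {d : ℝ} (hd : 0 < d) (a : Ω) (D m : ℝ) : P.R a (d * D) (d * m) = P.R a D m := by
  rw [R, R, mul_left_comm (P.Λ a), rho_scale hd]

lemma kstep_shift {d : ℝ} (hd : 0 < d) (F : Ω → ℝ → ℝ → ℝ) (a : Ω) (D m : ℝ) :
    P.kstep (shift F d) a D m = shift (P.kstep F) d a D m := by
  simp only [kstep, shift, step, P.R_shift hd]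
  congr 1
  refine Comp.lsum_congr fun v _ => ?_
  rw [mul_max_of_nonneg _ _ hd.le, mul_assoc d D, mul_left_comm d (P.Λ a) D]

lemma step_cons {d : ℝ} (hd : 0 < d) (c : ℝ) (F : Ω → ℝ → ℝ → ℝ) (a : Ω) (D m : ℝ) :
    P.step (cons F c d) a D m = cons (P.step F) c d a D m := by
  simp only [cons, step]
  refine Comp.lsum_congr fun v _ => ?_
  rw [mul_max_of_nonneg _ _ hd.le, mul_assoc d D, mul_left_comm (P.Λ a) d D, max_assoc]

lemma Λp_of_start {a : Ω} {v : Term T Unit Unit} (hv : v ∈ P.N)
    (h : v.coef a * v.g.ran a ≠ 0) : P.Λp a = P.Λ a :=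
  max_eq_left (P.start v hv a h)

lemma R_step {F : Ω → ℝ → ℝ → ℝ} {a : Ω} {D m : ℝ} (hD : 0 < D) (hm : 0 < m) :
    P.R a D m * P.step F a D m = P.R a D m * P.kwalk 0 (shift F D) a := by
  rw [kwalk_zero, walk_zero, step]
  by_cases hR : P.R a D m = 0
  · rw [hR, zero_mul, zero_mul]
  congr 1
  refine Comp.lsum_congr fun v hv => ?_
  by_cases h0 : v.coef a * v.g.ran a = 0
  · rw [h0, zero_mul, zero_mul]
  have h1 := lt_of_rho_ne P.G_pos hm hR
  have h2 : m ≤ P.G * m := le_mul_of_one_le_left hm.le (one_le_two.trans P.G_ge)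
  simp only [shift]
  rw [max_eq_right (h2.trans h1.le), P.Λp_of_start hv h0, mul_comm (P.Λ a) D]

/-- a walk splits at its last first record -/
theorem walk_eq : ∀ (n : ℕ) (F : Ω → ℝ → ℝ → ℝ) (b : Ω),
    P.walk n F b = P.kwalk n F b + ∑ i ∈ Finset.range n,
      P.walk i (fun a D m => P.R a D m * P.kwalk (n - 1 - i) (shift F D) a) b := by
  intro n
  induction n with
  | zero => intro F b; simp [kwalk_zero]
  | succ n ih =>
    intro F b
    have e : P.walk n (P.step F) b
        = P.walk n (P.kstep F) b + P.walk n (fun a D m => P.R a D m * P.step F a D m) b := by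
      rw [← walk_add]
      exact P.walk_congr (fun a D m _ _ => by rw [kstep]; ring) b
    rw [walk_succ, e, ih (P.kstep F) b, kwalk_succ, Finset.sum_range_succ, add_assoc]
    congr 1
    congr 1
    · refine Finset.sum_congr rfl fun i hi => P.walk_congr (fun a D m hD _ => ?_) b
      rw [show n + 1 - 1 - i = n - 1 - i + 1 by have := Finset.mem_range.1 hi; omega, kwalk_succ]
      congr 1
      exact P.kwalk_congr (fun x D' m' _ _ => (P.kstep_shift hD F x D' m').symm) a
    · refine P.walk_congr (fun a D m hD hm => ?_) b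
      rw [show n + 1 - 1 - n = 0 by omega]
      exact P.R_step hD hm

/-- a walk splits after its first step -/
theorem walk_succ' : ∀ (n : ℕ) (F : Ω → ℝ → ℝ → ℝ) (b : Ω),
    P.walk (n + 1) F b = lsum P.N fun u => u.coef b * u.g.ran b
      * P.walk n (cons F (P.Λp b) (u.g.dens b)) (u.g.toDom b) := by
  intro n
  induction n with
  | zero =>
    intro F b
    rw [walk_succ, walk_zero]
    refine Comp.lsum_congr fun u _ => ?_
    rw [walk_zero, step]
    congr 1
    refine Comp.lsum_congr fun v hv => ?_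
    by_cases h0 : v.coef (u.g.toDom b) * v.g.ran (u.g.toDom b) = 0
    · rw [h0, zero_mul, zero_mul]
    simp only [cons]
    rw [P.Λp_of_start hv h0, mul_comm (P.Λ (u.g.toDom b))]
  | succ n ih =>
    intro F b
    rw [walk_succ, ih]
    refine Comp.lsum_congr fun u _ => ?_
    rw [P.walk_succ n]
    congr 1
    exact P.walk_congr (fun a D m _ _ => (P.step_cons (u.g.dens_pos b) _ F a D m).symm) _

/-- the end indicator -/
def at' (y : Ω) (a : Ω) : ℝ := if a = y then 1 else 0

lemma k1_Dop (n : ℕ) (b y : Ω) :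
    k1 (P.Dop n) b y = P.walk n (fun a D m => P.R a D m * at' y a) b := by
  rw [k1_eq, ← P.lsum_Dop n (at' y)]
  rfl

lemma k1_Cop (n : ℕ) (b y : Ω) :
    k1 (P.Cop n) b y = P.kwalk n (fun a D m => P.R a D m * at' y a) b := by
  rw [k1_eq, ← P.lsum_Cop n (at' y)]
  rfl

/-- a record is a first record followed by the records of the rest -/
theorem k1_split (n : ℕ) (b y : Ω) :
    k1 (P.Dop n) b y = k1 (P.Cop n) b y
      + ∑ i ∈ Finset.range n, k1 ((P.Dop i).mul (P.Cop (n - 1 - i))) b y := by
  rw [k1_Dop, k1_Cop, walk_eq]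
  congr 1
  refine Finset.sum_congr rfl fun i _ => ?_
  rw [k1_mul]
  refine Eq.trans ?_ (P.lsum_Dop i (fun a => k1 (P.Cop (n - 1 - i)) a y) b).symm
  refine P.walk_congr (fun a D m hD _ => ?_) b
  rw [k1_Cop]
  congr 1
  exact P.kwalk_congr (fun x D' m' _ _ => by simp only [shift, P.R_shift hD]) a

/-- the level of the pair is far above the cutoff, whichever translation joins it -/
def High (b y : Ω) : Prop :=
  ∀ g : GElt T, g.ran b = 1 → g.toDom b = y → 2 * P.G * P.Λp b < P.Λ y * g.dens b

lemma R_eq_one_of_high {b y : Ω} (h : P.High b y) {g : GElt T} (hg : g.ran b = 1)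
    (hy : g.toDom b = y) {D : ℝ} (hD : g.dens b = D) : P.R y D (P.Λp b) = 1 := by
  by_contra hc
  have h1 := le_of_rho_ne_one P.G_pos (P.Λp_pos b) hc
  have h2 := h g hg hy
  rw [hD] at h2
  linarith

/-- high entries of a record operator -/
theorem k1_high_succ {b y : Ω} (h : P.High b y) (n : ℕ) :
    k1 (P.Dop (n + 1)) b y = k1 (P.N.mul (P.Dop n)) b y := by
  rw [k1_Dop, walk_succ', k1_mul]
  refine Comp.lsum_congr fun u _ => ?_
  rw [k1_Dop]
  rcases idem_zero_or_one u.g.ran_idem b with h0 | h0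
  · rw [h0, mul_zero, zero_mul, zero_mul]
  congr 1
  refine Comp.lsum_congr fun s hs => ?_
  simp only [cons, at']
  rcases idem_zero_or_one s.g.ran_idem (u.g.toDom b) with h1 | h1
  · simp [h1]
  by_cases hy : s.g.toDom (u.g.toDom b) = y
  · congr 1
    congr 1
    have hm : 0 < s.mx (u.g.toDom b) :=
      (P.Λp_pos _).trans_le (P.paths_facts n s hs _).2.1
    have hd := u.g.dens_pos b
    have hone : P.R (s.g.toDom (u.g.toDom b)) (u.g.dens b * s.g.dens (u.g.toDom b)) (P.Λp b) = 1 :=
      by
        rw [hy]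
        refine P.R_eq_one_of_high h (g := u.g.mul s.g) ?_ hy rfl
        show u.g.ran b * s.g.ran (u.g.toDom b) = 1
        rw [h0, h1, mul_one]
    exact (rho_max P.G_pos (P.Λp_pos b) (mul_pos hd hm) hone).trans (P.R_shift hd _ _ _)
  · simp [hy]

/-- high entries of the first record operator -/
theorem k1_high_zero {b y : Ω} (h : P.High b y) : k1 (P.Dop 0) b y = k1 P.N b y := by
  rw [k1_Dop, walk_zero, k1_eq]
  refine Comp.lsum_congr fun u _ => ?_
  simp only [at']
  rcases idem_zero_or_one u.g.ran_idem b with h0 | h0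
  · simp [h0]
  by_cases hy : u.g.toDom b = y
  · rw [hy, P.R_eq_one_of_high h h0 hy rfl, one_mul]
  · simp [hy]

/-- on high entries the records telescope -/
theorem k1_high {b y : Ω} (h : P.High b y) (n : ℕ) :
    k1 P.N b y + k1 (P.N.mul (P.Hsum n)) b y - k1 (P.Hsum n) b y = k1 (P.Dop n) b y := by
  have e : k1 (P.N.mul (P.Hsum n)) b y
      = ∑ k ∈ Finset.range n, k1 (P.N.mul (P.Dop k)) b y := by
    simp only [k1_mul, Hsum, k1_range]
    simp only [Finset.mul_sum]
    rw [Comp.lsum_finset]
  rw [e, Hsum, k1_range]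
  simp only [← P.k1_high_succ h, ← P.k1_high_zero h]
  have t := Finset.sum_range_succ' (fun k => k1 (P.Dop k) b y) n
  rw [Finset.sum_range_succ] at t
  linarith

end W

end Vale.Agent.P078.T3.Walk
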