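import Mathlib
import Vale.Agent.P078.Type3.Walk.Ident
import Vale.Agent.P078.Type3.Forms.Ker

/-! Homogeneity, changes of the coefficients, the supersolution bound of the first records, and
the error between the records and the compound of the first records. -/

noncomputable section

open scoped ComplexOrder
open Classical

set_option linter.unusedSectionVars false

namespace Vale.Agent.P078.T3.Walk

open Vale.Agent.P078.T3.Comp (lsum)

universe u v

variable {M : Type u} [CStarAlgebra M] [PartialOrder M] [StarOrderedRing M]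
  {Ω : Type v} [TopologicalSpace Ω] [CompactSpace Ω] [T2Space Ω] {T : SMasa M Ω}

lemma k1_nonneg {S : GOp T Unit Unit} (hS : ∀ t ∈ S, 0 ≤ t.coef) (b y : Ω) : 0 ≤ k1 S b y := by
  rw [k1_eq]
  refine Comp.lsum_nonneg fun t ht => mul_nonneg (mul_nonneg (hS t ht b)
    (idem_nonneg t.g.ran_idem b)) ?_
  split_ifs <;> norm_num

lemma k1_smul (c : ℝ) (S : GOp T Unit Unit) (b y : Ω) : k1 (S.smul c) b y = c * k1 S b y :=
  FormKer.ker_smul c S _ _

/-- finite sums of the entries of one row -/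
lemma k1_sum_le {S : GOp T Unit Unit} (hS : ∀ t ∈ S, 0 ≤ t.coef) {p : Ω → ℝ} (hp : ∀ y, 0 ≤ p y)
    (b : Ω) (s : Finset Ω) :
    ∑ y ∈ s, k1 S b y * p y ≤ lsum S fun t => t.coef b * t.g.ran b * p (t.g.toDom b) := by
  simp only [k1_eq, mul_comm _ (p _), ← Comp.lsum_mul]
  rw [← Comp.lsum_finset]
  refine Comp.lsum_le fun t ht => ?_
  simp only [mul_ite, mul_one, mul_zero]
  rw [Finset.sum_ite_eq]
  split_ifs
  · exact le_rfl
  · exact mul_nonneg (hp _) (mul_nonneg (hS t ht b) (idem_nonneg t.g.ran_idem b))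

namespace W

variable (P : W T)

lemma rec'_nonneg (s : Path (T := T)) (b : Ω) : 0 ≤ P.rec' s b := rho_nonneg _ _ _

lemma Dop_nonneg (n : ℕ) : ∀ t ∈ P.Dop n, 0 ≤ t.coef := by
  intro t ht b
  obtain ⟨s, hs, rfl⟩ := List.mem_map.1 ht
  exact mul_nonneg (P.rec'_nonneg s b) (P.paths_facts n s hs b).1

lemma Cop_nonneg (n : ℕ) : ∀ t ∈ P.Cop n, 0 ≤ t.coef := by
  intro t ht b
  obtain ⟨s, hs, rfl⟩ := List.mem_map.1 ht
  exact mul_nonneg (mul_nonneg (P.rec'_nonneg s b) (P.paths_facts n s hs b).2.2.1)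
    (P.paths_facts n s hs b).1

lemma Hsum_nonneg (n : ℕ) : ∀ t ∈ P.Hsum n, 0 ≤ t.coef := fun t ht => by
  obtain ⟨k, -, hk⟩ := List.mem_flatMap.1 ht
  exact P.Dop_nonneg k t hk

lemma Csum_nonneg (n : ℕ) : ∀ t ∈ P.Csum n, 0 ≤ t.coef := fun t ht => by
  obtain ⟨k, -, hk⟩ := List.mem_flatMap.1 ht
  exact P.Cop_nonneg k t hk

/-- a first record goes above the cutoff -/
lemma Csum_level {n : ℕ} {t : Term T Unit Unit} (ht : t ∈ P.Csum n) {b : Ω}
    (h : t.coef b ≠ 0) : P.G * P.Λp b < P.Λ (t.g.toDom b) * t.g.dens b := by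
  obtain ⟨k, -, hk⟩ := List.mem_flatMap.1 ht
  obtain ⟨s, hs, rfl⟩ := List.mem_map.1 hk
  simp only [ContinuousMap.mul_apply, mul_ne_zero_iff] at h
  rw [P.rec'_apply hs] at h
  obtain ⟨h1, -, -⟩ := (show P.R _ _ _ ≠ 0 ∧ _ ∧ _ from ⟨h.1.1, h.1.2, h.2⟩)
  have hmx := (P.paths_facts k s hs b).2.1
  exact (mul_le_mul_of_nonneg_left hmx P.G_pos.le).trans_lt
    (lt_of_rho_ne P.G_pos ((P.Λp_pos b).trans_le hmx) h1)

lemma lsum_Cop_dens (n : ℕ) (f : Ω → ℝ) (b : Ω) :
    lsum (P.Cop n) (fun t => t.coef b * t.g.ran b * (t.g.dens b * f (t.g.toDom b)))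
      = P.kwalk n (fun a D m => P.R a D m * (D * f a)) b := by
  rw [Cop, Comp.lsum_map, kwalk]
  refine Comp.lsum_congr fun s hs => ?_
  simp only [ContinuousMap.mul_apply, P.rec'_apply hs]
  ring

lemma kwalk_nonneg {n : ℕ} {F : Ω → ℝ → ℝ → ℝ} (h : ∀ a D m, 0 < D → 0 < m → 0 ≤ F a D m)
    (b : Ω) : 0 ≤ P.kwalk n F b := by
  refine le_trans (le_of_eq ?_) (P.kwalk_le (F := fun _ _ _ => 0) h b)
  simp [kwalk, Comp.lsum_zero]

/-- the first records stay below a supersolution -/
theorem Csum_le {V : Ω → ℝ} (hV : ∀ a, 0 ≤ V a)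
    (hsup : ∀ a, lsum P.N (fun u => u.coef a * u.g.ran a * (u.g.dens a * V (u.g.toDom a))) ≤ V a)
    (n : ℕ) (b : Ω) :
    lsum (P.Csum n) (fun t => t.coef b * t.g.ran b * (t.g.dens b * V (t.g.toDom b))) ≤ V b := by
  have key : ∀ n : ℕ, (∑ k ∈ Finset.range n, P.kwalk k (fun a D m => P.R a D m * (D * V a)) b)
      + P.kwalk n (fun a D _ => D * V a) b ≤ V b := by
    intro n
    induction n with
    | zero => rw [Finset.range_zero, Finset.sum_empty, zero_add, kwalk_zero, walk_zero]; exact hsup b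
    | succ n ih =>
      refine le_trans ?_ ih
      rw [Finset.sum_range_succ, add_assoc]
      refine add_le_add le_rfl ?_
      rw [kwalk_succ, ← kwalk_add]
      refine P.kwalk_le (fun a D m hD _ => ?_) b
      have h1 : P.step (fun x E _ => E * V x) a D m ≤ D * V a := by
        rw [step]
        refine le_trans (le_of_eq ?_) (mul_le_mul_of_nonneg_left (hsup a) hD.le)
        rw [← Comp.lsum_mul]
        exact Comp.lsum_congr fun v _ => by ring
      have h2 := mul_le_mul_of_nonneg_left h1 (sub_nonneg.2 (rho_le_one P.G (P.Λ a * D) m))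
      simp only [kstep, R] at h2 ⊢
      linarith
  have h0 : 0 ≤ P.kwalk n (fun a D _ => D * V a) b :=
    P.kwalk_nonneg (fun a D _ hD _ => mul_nonneg hD.le (hV a)) b
  rw [Csum, lsum_range]
  simp only [P.lsum_Cop_dens]
  linarith [key n]

/-- scaled coefficients -/
def scale (z : ℝ) (hz : 0 ≤ z) : W T :=
  { P with
    N := P.N.smul z
    N_nonneg := fun t ht b => by
      obtain ⟨s, hs, rfl⟩ := List.mem_map.1 ht
      exact mul_nonneg hz (P.N_nonneg s hs b)
    start := fun t ht b h => by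
      obtain ⟨s, hs, rfl⟩ := List.mem_map.1 ht
      refine P.start s hs b fun h0 => h ?_
      show z * s.coef b * s.g.ran b = 0
      rw [mul_assoc, h0, mul_zero] }

lemma walk_scale {z : ℝ} (hz : 0 ≤ z) : ∀ (n : ℕ) (F : Ω → ℝ → ℝ → ℝ) (b : Ω),
    (P.scale z hz).walk n F b = z ^ (n + 1) * P.walk n F b := by
  intro n
  induction n with
  | zero =>
    intro F b
    rw [walk_zero, walk_zero, zero_add, pow_one, ← Comp.lsum_mul]
    show lsum (P.N.smul z) _ = _
    rw [GOp.smul, Comp.lsum_map]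
    refine Comp.lsum_congr fun t _ => ?_
    show z * t.coef b * _ * F _ _ (P.Λp b) = _
    ring
  | succ n ih =>
    intro F b
    have e : ∀ a D m, (P.scale z hz).step F a D m = z * P.step F a D m := fun a D m => by
      rw [step, step, ← Comp.lsum_mul]
      show lsum (P.N.smul z) _ = _
      rw [GOp.smul, Comp.lsum_map]
      refine Comp.lsum_congr fun t _ => ?_
      show z * t.coef a * _ * F _ _ (max m (P.Λ a * D)) = _
      ring
    rw [walk_succ, walk_succ, ih, P.walk_congr (fun a D m _ _ => e a D m), walk_smul,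
      pow_succ z (n + 1)]
    ring

lemma kwalk_scale {z : ℝ} (hz : 0 ≤ z) : ∀ (n : ℕ) (F : Ω → ℝ → ℝ → ℝ) (b : Ω),
    (P.scale z hz).kwalk n F b = z ^ (n + 1) * P.kwalk n F b := by
  intro n
  induction n with
  | zero => intro F b; rw [kwalk_zero, kwalk_zero]; exact P.walk_scale hz 0 F b
  | succ n ih =>
    intro F b
    have e : ∀ a D m, (P.scale z hz).kstep F a D m = z * P.kstep F a D m := fun a D m => by
      have e1 : (P.scale z hz).step F a D m = z * P.step F a D m := by
        rw [step, step, ← Comp.lsum_mul]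
        show lsum (P.N.smul z) _ = _
        rw [GOp.smul, Comp.lsum_map]
        refine Comp.lsum_congr fun t _ => ?_
        show z * t.coef a * _ * F _ _ (max m (P.Λ a * D)) = _
        ring
      show (1 - P.R a D m) * _ = z * ((1 - P.R a D m) * _)
      rw [e1]
      ring
    rw [kwalk_succ, kwalk_succ, ih, P.kwalk_congr (fun a D m _ _ => e a D m), kwalk_smul,
      pow_succ z (n + 1)]
    ring

lemma k1_Dop_scale {z : ℝ} (hz : 0 ≤ z) (n : ℕ) (b y : Ω) :
    k1 ((P.scale z hz).Dop n) b y = z ^ (n + 1) * k1 (P.Dop n) b y := by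
  rw [k1_Dop, k1_Dop]
  exact P.walk_scale hz n _ b

lemma k1_Cop_scale {z : ℝ} (hz : 0 ≤ z) (n : ℕ) (b y : Ω) :
    k1 ((P.scale z hz).Cop n) b y = z ^ (n + 1) * k1 (P.Cop n) b y := by
  rw [k1_Cop, k1_Cop]
  exact P.kwalk_scale hz n _ b

/-- coefficients changed at both ends -/
def twist (u v : C(Ω, ℝ)) (hu : 0 ≤ u) (hv : 0 ≤ v) : W T :=
  { P with
    N := P.N.map fun t => { t with coef := u * t.coef * v.comp t.g.toDom }
    N_nonneg := fun t ht b => by
      obtain ⟨s, hs, rfl⟩ := List.mem_map.1 ht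
      exact mul_nonneg (mul_nonneg (hu b) (P.N_nonneg s hs b)) (hv _)
    start := fun t ht b h => by
      obtain ⟨s, hs, rfl⟩ := List.mem_map.1 ht
      refine P.start s hs b fun h0 => h ?_
      show u b * s.coef b * v (s.g.toDom b) * s.g.ran b = 0
      calc _ = u b * v (s.g.toDom b) * (s.coef b * s.g.ran b) := by ring
        _ = 0 := by rw [h0, mul_zero] }

variable {u v : C(Ω, ℝ)} {hu : 0 ≤ u} {hv : 0 ≤ v}

lemma lsum_twist (F : Term T Unit Unit → ℝ) :
    lsum (P.twist u v hu hv).N F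
      = lsum P.N fun t => F { t with coef := u * t.coef * v.comp t.g.toDom } :=
  Comp.lsum_map _ _ _

/-- changed coefficients with product at most one only lower the first records -/
theorem kwalk_twist_le (huv : ∀ a, u a * v a ≤ 1) : ∀ (n : ℕ) (F : Ω → ℝ → ℝ → ℝ) (b : Ω),
    (∀ a D m, 0 < D → 0 < m → 0 ≤ F a D m) →
      (P.twist u v hu hv).kwalk n F b ≤ u b * P.kwalk n (fun a D m => v a * F a D m) b := by
  intro n
  induction n with
  | zero =>
    intro F b _
    rw [kwalk_zero, kwalk_zero, walk_zero, walk_zero, lsum_twist, ← Comp.lsum_mul]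
    refine le_of_eq (Comp.lsum_congr fun t _ => ?_)
    show u b * t.coef b * v (t.g.toDom b) * _ * F _ _ (P.Λp b) = _
    ring
  | succ n ih =>
    intro F b hF
    have hstep : ∀ a D m, 0 < D → 0 < m → 0 ≤ P.step (fun x E l => v x * F x E l) a D m :=
      fun a D m hD hm => Comp.lsum_nonneg fun t ht => mul_nonneg
        (mul_nonneg (P.N_nonneg t ht a) (idem_nonneg t.g.ran_idem a))
        (mul_nonneg (hv _) (hF _ _ _ (mul_pos hD (t.g.dens_pos a)) (lt_max_of_lt_left hm)))
    have e : ∀ a D m, (P.twist u v hu hv).kstep F a D m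
        = u a * P.kstep (fun x E l => v x * F x E l) a D m := fun a D m => by
      have e1 : (P.twist u v hu hv).step F a D m
          = u a * P.step (fun x E l => v x * F x E l) a D m := by
        rw [step, step, lsum_twist, ← Comp.lsum_mul]
        refine Comp.lsum_congr fun t _ => ?_
        show u a * t.coef a * v (t.g.toDom a) * _ * F _ _ (max m (P.Λ a * D)) = _
        ring
      show (1 - P.R a D m) * _ = u a * ((1 - P.R a D m) * _)
      rw [e1]
      ring
    have hk : ∀ a D m, 0 < D → 0 < m → 0 ≤ P.kstep (fun x E l => v x * F x E l) a D m :=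
      fun a D m hD hm => mul_nonneg (sub_nonneg.2 (rho_le_one _ _ _)) (hstep a D m hD hm)
    rw [kwalk_succ, kwalk_succ]
    refine (ih _ b fun a D m hD hm => ?_).trans
      (mul_le_mul_of_nonneg_left (P.kwalk_le (fun a D m hD hm => ?_) b) (hu b))
    · rw [e]; exact mul_nonneg (hu a) (hk a D m hD hm)
    · rw [e, ← mul_assoc, mul_comm (v a)]
      exact mul_le_of_le_one_left (hk a D m hD hm) (huv a)

lemma k1_Cop_twist_le (huv : ∀ a, u a * v a ≤ 1) (n : ℕ) (b y : Ω) :
    k1 ((P.twist u v hu hv).Cop n) b y ≤ u b * v y * k1 (P.Cop n) b y := by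
  rw [k1_Cop, k1_Cop, mul_assoc, ← kwalk_smul]
  refine (P.kwalk_twist_le huv n _ b fun a D m _ _ => mul_nonneg (rho_nonneg _ _ _) ?_).trans
    (le_of_eq (congrArg (u b * ·) (P.kwalk_congr (fun a D m _ _ => ?_) b)))
  · unfold at'; split_ifs <;> norm_num
  · show v a * (P.R a D m * at' y a) = v y * (P.R a D m * at' y a)
    by_cases h : a = y
    · rw [h]
    · simp [at', h]

/-- the error between the records and the compound of the first records -/
def Eop (n : ℕ) : GOp T Unit Unit :=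
  GOp.smul (-1) ((List.range n).flatMap fun i =>
    (List.range (i + 1)).flatMap fun l => (P.Dop i).mul (P.Cop (n - 1 - i + l)))

lemma k1_mul_range (L : GOp T Unit Unit) (R : ℕ → GOp T Unit Unit) (n : ℕ) (b y : Ω) :
    k1 (GOp.mul L ((List.range n).flatMap R)) b y
      = ∑ k ∈ Finset.range n, k1 (L.mul (R k)) b y := by
  simp only [k1_mul, k1_range, Finset.mul_sum, Comp.lsum_finset]

lemma k1_range_mul (L : ℕ → GOp T Unit Unit) (R : GOp T Unit Unit) (n : ℕ) (b y : Ω) :
    k1 (GOp.mul ((List.range n).flatMap L) R) b y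
      = ∑ k ∈ Finset.range n, k1 ((L k).mul R) b y := by
  simp only [k1_mul, lsum_range]

lemma k1_HC (n m : ℕ) (b y : Ω) :
    k1 ((P.Hsum n).mul (P.Csum m)) b y
      = ∑ i ∈ Finset.range n, ∑ j ∈ Finset.range m, k1 ((P.Dop i).mul (P.Cop j)) b y := by
  simp only [Hsum, Csum, k1_range_mul, k1_mul_range]
  exact Finset.sum_comm

/-- the records up to `n` steps are the compounds with at most `n` steps -/
theorem k1_Hsum : ∀ (n : ℕ) (b y : Ω), k1 (P.Hsum n) b y = k1 (P.Csum n) b y
    + ∑ i ∈ Finset.range n, ∑ j ∈ Finset.range (n - 1 - i),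
        k1 ((P.Dop i).mul (P.Cop j)) b y := by
  intro n b y
  simp only [Hsum, Csum, k1_range]
  induction n with
  | zero => simp
  | succ n ih =>
    rw [Finset.sum_range_succ, Finset.sum_range_succ, ih, P.k1_split n b y,
      Finset.sum_range_succ _ n, show n + 1 - 1 - n = 0 by omega, Finset.range_zero,
      Finset.sum_empty, add_zero]
    have e : ∑ i ∈ Finset.range n, ∑ j ∈ Finset.range (n + 1 - 1 - i),
          k1 ((P.Dop i).mul (P.Cop j)) b y
        = (∑ i ∈ Finset.range n, ∑ j ∈ Finset.range (n - 1 - i),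
            k1 ((P.Dop i).mul (P.Cop j)) b y)
          + ∑ i ∈ Finset.range n, k1 ((P.Dop i).mul (P.Cop (n - 1 - i))) b y := by
      rw [← Finset.sum_add_distrib]
      refine Finset.sum_congr rfl fun i hi => ?_
      rw [show n + 1 - 1 - i = n - 1 - i + 1 by have := Finset.mem_range.1 hi; omega,
        Finset.sum_range_succ]
    rw [e]
    ring

theorem k1_Eop (n : ℕ) (b y : Ω) :
    k1 (P.Eop n) b y = -∑ i ∈ Finset.range n, ∑ l ∈ Finset.range (i + 1),
      k1 ((P.Dop i).mul (P.Cop (n - 1 - i + l))) b y := by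
  rw [Eop, k1_smul, k1_range]
  simp only [k1_range, neg_one_mul]

/-- the fixed point identity up to the error -/
theorem k1_fixed (n : ℕ) (b y : Ω) :
    k1 (P.Hsum n) b y
      = k1 (P.Csum n) b y + k1 ((P.Hsum n).mul (P.Csum n)) b y + k1 (P.Eop n) b y := by
  rw [P.k1_Hsum, k1_Eop, k1_HC, add_assoc, ← sub_eq_add_neg, ← Finset.sum_sub_distrib]
  refine congrArg _ (Finset.sum_congr rfl fun i hi => ?_)
  have h := Finset.mem_range.1 hi
  have e := Finset.sum_range_add (fun j => k1 ((P.Dop i).mul (P.Cop j)) b y) (n - 1 - i) (i + 1)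
  rw [show n - 1 - i + (i + 1) = n by omega] at e
  rw [e]
  ring

lemma prod_nonneg (i j : ℕ) (b y : Ω) : 0 ≤ k1 ((P.Dop i).mul (P.Cop j)) b y := by
  rw [k1_mul]
  exact Comp.lsum_nonneg fun s hs => mul_nonneg
    (mul_nonneg (P.Dop_nonneg i s hs b) (idem_nonneg s.g.ran_idem b))
    (k1_nonneg (P.Cop_nonneg j) _ _)

/-- the error is exponentially smaller than the scaled compound -/
theorem abs_k1_Eop {z : ℝ} (hz : 1 ≤ z) (n : ℕ) (b y : Ω) :
    |k1 (P.Eop n) b y| ≤ (z ^ (n + 1))⁻¹
      * k1 (((P.scale z (zero_le_one.trans hz)).Hsum n).mul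
          ((P.scale z (zero_le_one.trans hz)).Csum n)) b y := by
  have hz0 : 0 < z := one_pos.trans_le hz
  rw [k1_Eop, abs_neg, abs_of_nonneg (Finset.sum_nonneg fun i _ => Finset.sum_nonneg fun l _ =>
    P.prod_nonneg _ _ _ _), le_inv_mul_iff₀ (pow_pos hz0 _), k1_HC, Finset.mul_sum]
  refine Finset.sum_le_sum fun i hi => ?_
  have h := Finset.mem_range.1 hi
  rw [Finset.mul_sum]
  have e : ∀ j, k1 (((P.scale z hz0.le).Dop i).mul ((P.scale z hz0.le).Cop j)) b y
      = z ^ (i + 1) * z ^ (j + 1) * k1 ((P.Dop i).mul (P.Cop j)) b y := fun j => by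
    rw [k1_mul, k1_mul]
    simp only [P.k1_Cop_scale hz0.le j]
    rw [(P.scale z hz0.le).lsum_Dop i (fun a => z ^ (j + 1) * k1 (P.Cop j) a y) b,
      P.lsum_Dop i (fun a => k1 (P.Cop j) a y) b, P.walk_scale hz0.le, mul_assoc (z ^ (i + 1))]
    congr 1
    rw [← walk_smul]
    refine P.walk_congr (fun a D m _ _ => ?_) b
    show P.R a D m * _ = _
    ring
  have e2 := Finset.sum_range_add
    (fun j => k1 (((P.scale z hz0.le).Dop i).mul ((P.scale z hz0.le).Cop j)) b y) (n - 1 - i) (i + 1)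
  rw [show n - 1 - i + (i + 1) = n by omega] at e2
  rw [e2]
  refine le_add_of_nonneg_of_le (Finset.sum_nonneg fun j _ => (P.scale z hz0.le).prod_nonneg i j b y)
    (Finset.sum_le_sum fun l _ => ?_)
  rw [e, ← pow_add]
  exact mul_le_mul_of_nonneg_right (pow_le_pow_right₀ hz (by omega)) (P.prod_nonneg _ _ _ _)

end W

end Vale.Agent.P078.T3.Walk
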