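import Mathlib
import Vale.Agent.P078.Type3.Walk.Scale

/-! Operator bounds: the weighted Schur test, the bound of the records from the bound of the first
records, and blocks over the channels. -/

noncomputable section

open scoped ComplexOrder
open Classical

set_option linter.unusedSectionVars false

namespace Vale.Agent.P078.T3.Walk

open Vale.Agent.P078.T3.Comp (lsum)

universe u v

section Abstract

variable {X Y : Type*}

/-- a dominated kernel -/
lemma opBd_dom {k k' : X → Y → ℝ} {c a : ℝ} (hc : 0 ≤ c) (h : ∀ x y, |k x y| ≤ c * k' x y)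
    (hk : OpBd k' a) : OpBd k (c * a) := by
  intro s t f g
  have h1 := hk s t (fun x => |f x|) (fun y => |g y|)
  simp only [sq_abs] at h1
  calc |∑ x ∈ s, ∑ y ∈ t, f x * k x y * g y|
      ≤ ∑ x ∈ s, ∑ y ∈ t, |f x| * (c * k' x y) * |g y| := by
        refine (Finset.abs_sum_le_sum_abs _ _).trans (Finset.sum_le_sum fun x _ =>
          (Finset.abs_sum_le_sum_abs _ _).trans (Finset.sum_le_sum fun y _ => ?_))
        rw [abs_mul, abs_mul]
        exact mul_le_mul_of_nonneg_right (mul_le_mul_of_nonneg_left (h x y) (abs_nonneg _))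
          (abs_nonneg _)
    _ = c * ∑ x ∈ s, ∑ y ∈ t, |f x| * k' x y * |g y| := by
        simp only [Finset.mul_sum]
        exact Finset.sum_congr rfl fun x _ => Finset.sum_congr rfl fun y _ => by ring
    _ ≤ _ := by
        rw [mul_assoc c, mul_assoc c]
        exact mul_le_mul_of_nonneg_left ((le_abs_self _).trans h1) hc

lemma opBd_mono {k : X → Y → ℝ} {a a' : ℝ} (h : a ≤ a') (hk : OpBd k a) : OpBd k a' :=
  fun s t f g => (hk s t f g).trans (mul_le_mul_of_nonneg_right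
    (mul_le_mul_of_nonneg_right h (Real.sqrt_nonneg _)) (Real.sqrt_nonneg _))

lemma opBd_zero {c : ℝ} (hc : 0 ≤ c) : OpBd (fun (_ : X) (_ : Y) => (0 : ℝ)) c := by
  intro s t f g
  simp only [mul_zero, zero_mul, Finset.sum_const_zero, abs_zero]
  positivity

/-- the Schur test with weights -/
lemma opBd_schur_weight {k : X → Y → ℝ} {q : X → ℝ} {p : Y → ℝ} {α β : ℝ} (hk : ∀ x y, 0 ≤ k x y)
    (hq : ∀ x, 0 < q x) (hp : ∀ y, 0 < p y) (hα : 0 ≤ α)
    (hr : ∀ x (t : Finset Y), ∑ y ∈ t, k x y * p y ≤ α * q x)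
    (hc : ∀ y (s : Finset X), ∑ x ∈ s, k x y * q x ≤ β * p y) :
    OpBd k (Real.sqrt (α * β)) := by
  intro s t f g
  set a : X × Y → ℝ := fun z => |f z.1| * Real.sqrt (k z.1 z.2 * (p z.2 / q z.1)) with ha
  set b : X × Y → ℝ := fun z => |g z.2| * Real.sqrt (k z.1 z.2 * (q z.1 / p z.2)) with hb
  have h1 : |∑ x ∈ s, ∑ y ∈ t, f x * k x y * g y| ≤ ∑ z ∈ s ×ˢ t, a z * b z := by
    rw [← Finset.sum_product']
    refine (Finset.abs_sum_le_sum_abs _ _).trans (Finset.sum_le_sum fun z _ => le_of_eq ?_)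
    have e : Real.sqrt (k z.1 z.2 * (p z.2 / q z.1)) * Real.sqrt (k z.1 z.2 * (q z.1 / p z.2))
        = k z.1 z.2 := by
      rw [← Real.sqrt_mul (mul_nonneg (hk _ _) (div_nonneg (hp _).le (hq _).le))]
      refine (congrArg Real.sqrt ?_).trans (Real.sqrt_mul_self (hk z.1 z.2))
      have := (hp z.2).ne'
      have := (hq z.1).ne'
      field_simp
    rw [abs_mul, abs_mul, abs_of_nonneg (hk _ _), ha, hb]
    calc |f z.1| * k z.1 z.2 * |g z.2| = |f z.1| * |g z.2| * k z.1 z.2 := by ring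
      _ = |f z.1| * |g z.2| * (Real.sqrt (k z.1 z.2 * (p z.2 / q z.1))
            * Real.sqrt (k z.1 z.2 * (q z.1 / p z.2))) := by rw [e]
      _ = _ := by ring
  have hF : ∑ z ∈ s ×ˢ t, a z ^ 2 ≤ α * ∑ x ∈ s, f x ^ 2 := by
    rw [Finset.sum_product, Finset.mul_sum]
    refine Finset.sum_le_sum fun x _ => ?_
    have e : ∀ y, a (x, y) ^ 2 = f x ^ 2 / q x * (k x y * p y) := fun y => by
      rw [ha, mul_pow, sq_abs,
        Real.sq_sqrt (mul_nonneg (hk _ _) (div_nonneg (hp _).le (hq _).le))]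
      ring
    simp only [e, ← Finset.mul_sum]
    refine (mul_le_mul_of_nonneg_left (hr x t) (div_nonneg (sq_nonneg _) (hq x).le)).trans
      (le_of_eq ?_)
    have := (hq x).ne'
    field_simp
  have hG : ∑ z ∈ s ×ˢ t, b z ^ 2 ≤ β * ∑ y ∈ t, g y ^ 2 := by
    rw [Finset.sum_product_right, Finset.mul_sum]
    refine Finset.sum_le_sum fun y _ => ?_
    have e : ∀ x, b (x, y) ^ 2 = g y ^ 2 / p y * (k x y * q x) := fun x => by
      rw [hb, mul_pow, sq_abs,
        Real.sq_sqrt (mul_nonneg (hk _ _) (div_nonneg (hq _).le (hp _).le))]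
      ring
    simp only [e, ← Finset.mul_sum]
    refine (mul_le_mul_of_nonneg_left (hc y s) (div_nonneg (sq_nonneg _) (hp y).le)).trans
      (le_of_eq ?_)
    have := (hp y).ne'
    field_simp
  refine h1.trans ((Real.sum_mul_le_sqrt_mul_sqrt _ a b).trans ?_)
  refine (mul_le_mul (Real.sqrt_le_sqrt hF) (Real.sqrt_le_sqrt hG) (Real.sqrt_nonneg _)
    (Real.sqrt_nonneg _)).trans (le_of_eq ?_)
  rw [Real.sqrt_mul hα (∑ x ∈ s, f x ^ 2),
    Real.sqrt_mul' β (Finset.sum_nonneg fun y _ => sq_nonneg (g y)), Real.sqrt_mul hα β]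
  ring

end Abstract

variable {M : Type u} [CStarAlgebra M] [PartialOrder M] [StarOrderedRing M]
  {Ω : Type v} [TopologicalSpace Ω] [CompactSpace Ω] [T2Space Ω] {T : SMasa M Ω}

lemma opBd_of_k1 {S : GOp T Unit Unit} {c : ℝ} (h : OpBd (k1 S) c) : OpBd S.ker c := by
  intro s t f g
  have h1 := h (s.image Prod.fst) (t.image Prod.fst) (fun b => f (b, ())) (fun y => g (y, ()))
  have i : ∀ {A : Finset (Ω × Unit)}, Set.InjOn (Prod.fst : Ω × Unit → Ω) A :=
    fun {A} a _ b _ e => Prod.ext e (Subsingleton.elim _ _)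
  rw [Finset.sum_image i, Finset.sum_image i, Finset.sum_image i] at h1
  refine le_trans (le_of_eq (congrArg _ (Finset.sum_congr rfl fun x _ => ?_))) h1
  exact (Finset.sum_image (f := fun y => f x * S.ker x (y, ()) * g (y, ())) (i (A := t))).symm

lemma k1_of_opBd {S : GOp T Unit Unit} {c : ℝ} (h : OpBd S.ker c) : OpBd (k1 S) c := by
  intro s t f g
  have h1 := h (s.map ⟨fun b => (b, ()), fun a b e => (Prod.ext_iff.1 e).1⟩)
    (t.map ⟨fun b => (b, ()), fun a b e => (Prod.ext_iff.1 e).1⟩) (fun z => f z.1) (fun z => g z.1)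
  simp only [Finset.sum_map] at h1
  exact h1

lemma opBd_k1_mul {S R : GOp T Unit Unit} {a b : ℝ} (ha : 0 ≤ a) (hb : 0 ≤ b)
    (hS : OpBd (k1 S) a) (hR : OpBd (k1 R) b) : OpBd (k1 (S.mul R)) (a * b) :=
  k1_of_opBd (FormKer.opBd_mul ha hb (opBd_of_k1 hS) (opBd_of_k1 hR))

namespace W

variable (P : W T)

/-- a bound of a half for the first records gives a bound of one for all records -/
theorem opBd_Hsum : ∀ n : ℕ, (∀ k ≤ n, OpBd (k1 (P.Csum k)) (1 / 2)) →
    OpBd (k1 (P.Hsum n)) 1 := by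
  intro n
  induction n with
  | zero =>
    intro _
    exact FormKer.opBd_congr (fun b y => by simp [k1, Hsum, GOp.ker]) (opBd_zero zero_le_one)
  | succ n ih0 =>
    intro hC
    have ih := ih0 fun k hk => hC k (hk.trans n.le_succ)
    have h1 : OpBd (fun b y => k1 (P.Csum (n + 1)) b y
        + k1 ((P.Hsum n).mul (P.Csum (n + 1))) b y) (1 / 2 + 1 * (1 / 2)) :=
      FormKer.opBd_add (hC _ le_rfl) (opBd_k1_mul zero_le_one (by norm_num) ih (hC _ le_rfl))
    refine opBd_mono (by norm_num) (opBd_dom zero_le_one (fun b y => ?_) h1)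
    rw [abs_of_nonneg (k1_nonneg (P.Hsum_nonneg _) b y), one_mul, P.k1_Hsum, k1_HC]
    refine add_le_add le_rfl ?_
    rw [Finset.sum_range_succ, show n + 1 - 1 - n = 0 by omega, Finset.range_zero, Finset.sum_empty,
      add_zero]
    exact Finset.sum_le_sum fun i _ => Finset.sum_le_sum_of_subset_of_nonneg
      (Finset.range_subset_range.2 (by omega)) fun j _ _ => P.prod_nonneg i j b y

/-- the scaled series control the last record and the error -/
theorem small_of_scale {z : ℝ} (hz : 1 ≤ z)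
    (n : ℕ) (hC : ∀ k ≤ n + 1, OpBd (k1 ((P.scale z (zero_le_one.trans hz)).Csum k)) (1 / 2)) :
    OpBd (k1 (P.Hsum n)) 1 ∧ OpBd (k1 (P.Dop n)) (z ^ (n + 1))⁻¹ ∧
      OpBd (k1 (P.Eop n)) (z ^ (n + 1))⁻¹ := by
  have hz0 : 0 < z := one_pos.trans_le hz
  set Q := P.scale z hz0.le with hQ
  have hi : 0 ≤ (z ^ (n + 1))⁻¹ := (inv_pos.2 (pow_pos hz0 _)).le
  have hH : ∀ k ≤ n + 1, OpBd (k1 (Q.Hsum k)) 1 := fun k hk =>
    Q.opBd_Hsum k fun l hl => hC l (hl.trans hk)
  refine ⟨?_, ?_, ?_⟩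
  · refine opBd_mono (le_of_eq (one_mul 1)) (opBd_dom zero_le_one (fun b y => ?_) (hH n n.le_succ))
    rw [abs_of_nonneg (k1_nonneg (P.Hsum_nonneg _) b y), one_mul, Hsum, Hsum, k1_range, k1_range]
    refine Finset.sum_le_sum fun k _ => ?_
    rw [hQ, P.k1_Dop_scale hz0.le]
    exact le_mul_of_one_le_left (k1_nonneg (P.Dop_nonneg k) b y) (one_le_pow₀ hz)
  · refine opBd_mono (le_of_eq (mul_one _)) (opBd_dom hi (fun b y => ?_) (hH (n + 1) le_rfl))
    rw [abs_of_nonneg (k1_nonneg (P.Dop_nonneg _) b y), le_inv_mul_iff₀ (pow_pos hz0 _),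
      ← P.k1_Dop_scale hz0.le, Hsum, k1_range, Finset.sum_range_succ]
    exact le_add_of_nonneg_left (Finset.sum_nonneg fun k _ => k1_nonneg (Q.Dop_nonneg k) b y)
  · refine opBd_mono ?_ (opBd_dom hi (fun b y => P.abs_k1_Eop hz n b y)
      (opBd_k1_mul zero_le_one (by norm_num : (0 : ℝ) ≤ 1 / 2) (hH n n.le_succ) (hC n n.le_succ)))
    exact mul_le_of_le_one_right hi (by norm_num)

end W

/-! ### blocks over the channels -/

/-- a term put in a block -/
def put {ι κ : Type} (i : ι) (j : κ) (t : Term T Unit Unit) : Term T ι κ := ⟨i, j, t.coef, t.g⟩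

variable {r : ℕ}

/-- the diagonal blocks -/
def blk (L : Fin r → GOp T Unit Unit) : GOp T (Fin r) (Fin r) :=
  (List.finRange r).flatMap fun j => (L j).map (put j j)

/-- one row of blocks -/
def rowBlk (L : Fin r → GOp T Unit Unit) : GOp T Unit (Fin r) :=
  (List.finRange r).flatMap fun j => (L j).map (put () j)

lemma lsum_finR (F : Fin r → ℝ) : lsum (List.finRange r) F = ∑ j, F j :=
  (Fin.sum_univ_def F).symm

lemma ker_blk (L : Fin r → GOp T Unit Unit) (b y : Ω) (i j : Fin r) :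
    (blk L).ker (b, i) (y, j) = if i = j then k1 (L j) b y else 0 := by
  rw [blk, Comp.ker_eq, Comp.lsum_flatMap, lsum_finR]
  simp only [Comp.lsum_map]
  rw [Finset.sum_eq_single j (fun k _ hk => Comp.lsum_eq_zero fun t _ => by
    simp [Comp.ent, put, hk]) (by simp)]
  by_cases h : i = j
  · subst h
    rw [if_pos rfl, k1, Comp.ker_eq]
    refine Comp.lsum_congr fun t _ => ?_
    simp [Comp.ent, put]
  · rw [if_neg h]
    exact Comp.lsum_eq_zero fun t _ => by simp [Comp.ent, put, Ne.symm h]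

lemma ker_rowBlk (L : Fin r → GOp T Unit Unit) (b y : Ω) (j : Fin r) :
    (rowBlk L).ker (b, ()) (y, j) = k1 (L j) b y := by
  rw [rowBlk, Comp.ker_eq, Comp.lsum_flatMap, lsum_finR]
  simp only [Comp.lsum_map]
  rw [Finset.sum_eq_single j (fun k _ hk => Comp.lsum_eq_zero fun t _ => by
    simp [Comp.ent, put, hk]) (by simp), k1, Comp.ker_eq]
  refine Comp.lsum_congr fun t _ => ?_
  simp [Comp.ent, put]

/-- products with diagonal blocks are taken block by block -/
lemma ker_mul_blk {ι : Type} (S : GOp T ι (Fin r)) (L : Fin r → GOp T Unit Unit) (x : Ω × ι)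
    (y : Ω) (j : Fin r) :
    (S.mul (blk L)).ker x (y, j)
      = ∑ w ∈ FormKer.reach S x.1, S.ker x (w, j) * k1 (L j) w y := by
  rw [FormKer.ker_mul S (blk L) x (y, j) (Finset.Subset.refl _), Finset.sum_product]
  refine Finset.sum_congr rfl fun w _ => ?_
  rw [Finset.sum_eq_single j (fun k _ hk => by rw [ker_blk, if_neg hk, mul_zero]) (by simp),
    ker_blk, if_pos rfl]

lemma ker_rowBlk_mul_blk (S L : Fin r → GOp T Unit Unit) (b y : Ω) (j : Fin r) :
    ((rowBlk S).mul (blk L)).ker (b, ()) (y, j) = k1 ((S j).mul (L j)) b y := by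
  have hsub : FormKer.reach (S j) b ⊆ FormKer.reach (rowBlk S) b := by
    intro w hw
    simp only [FormKer.reach, List.mem_toFinset, List.mem_map] at hw ⊢
    obtain ⟨t, ht, rfl⟩ := hw
    exact ⟨put () j t, List.mem_flatMap.2 ⟨j, List.mem_finRange j, List.mem_map_of_mem ht⟩, rfl⟩
  rw [ker_mul_blk, k1, FormKer.ker_mul (S j) (L j) (b, ()) (y, ()) hsub, Finset.sum_product]
  refine Finset.sum_congr rfl fun w _ => ?_
  simp [ker_rowBlk, k1]

lemma ker_blk_mul_blk (S L : Fin r → GOp T Unit Unit) (b y : Ω) (i j : Fin r) :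
    ((blk S).mul (blk L)).ker (b, i) (y, j) = if i = j then k1 ((S j).mul (L j)) b y else 0 := by
  have hsub : FormKer.reach (S j) b ⊆ FormKer.reach (blk S) b := by
    intro w hw
    simp only [FormKer.reach, List.mem_toFinset, List.mem_map] at hw ⊢
    obtain ⟨t, ht, rfl⟩ := hw
    exact ⟨put j j t, List.mem_flatMap.2 ⟨j, List.mem_finRange j, List.mem_map_of_mem ht⟩, rfl⟩
  rw [ker_mul_blk, k1, FormKer.ker_mul (S j) (L j) (b, ()) (y, ()) hsub, Finset.sum_product]
  by_cases h : i = j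
  · rw [if_pos h]
    refine Finset.sum_congr rfl fun w _ => ?_
    simp [ker_blk, h, k1]
  · rw [if_neg h]
    exact Finset.sum_eq_zero fun w _ => by rw [ker_blk, if_neg h, zero_mul]

lemma opBd_blk {L : Fin r → GOp T Unit Unit} {c : ℝ} (hc : 0 ≤ c)
    (h : ∀ j, OpBd (k1 (L j)) c) : OpBd (blk L).ker c := by
  intro s t f g
  set sj : Fin r → Finset Ω := fun j => (s.filter fun z => z.2 = j).image Prod.fst with hsj
  set tj : Fin r → Finset Ω := fun j => (t.filter fun z => z.2 = j).image Prod.fst with htj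
  have i : ∀ (A : Finset (Ω × Fin r)) (j : Fin r),
      Set.InjOn (Prod.fst : Ω × Fin r → Ω) (A.filter fun z => z.2 = j : Finset (Ω × Fin r)) :=
    fun A j a ha b hb e => Prod.ext e (by
      rw [(Finset.mem_filter.1 (Finset.mem_coe.1 ha)).2, (Finset.mem_filter.1 (Finset.mem_coe.1 hb)).2])
  have hs : ∀ (A : Finset (Ω × Fin r)) (F : Ω × Fin r → ℝ),
      ∑ z ∈ A, F z = ∑ j, ∑ b ∈ (A.filter fun z => z.2 = j).image Prod.fst, F (b, j) := fun A F => by
    rw [← Finset.sum_fiberwise A Prod.snd F]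
    refine Finset.sum_congr rfl fun j _ => ?_
    rw [Finset.sum_image (i A j)]
    exact Finset.sum_congr rfl fun z hz => by rw [← (Finset.mem_filter.1 hz).2]
  have e : ∑ x ∈ s, ∑ y ∈ t, f x * (blk L).ker x y * g y
      = ∑ j, ∑ b ∈ sj j, ∑ y ∈ tj j, f (b, j) * k1 (L j) b y * g (y, j) := by
    rw [hs s]
    refine Finset.sum_congr rfl fun j _ => Finset.sum_congr rfl fun b _ => ?_
    rw [hs t, Finset.sum_eq_single j (fun k _ hk => Finset.sum_eq_zero fun y _ => by
      rw [ker_blk, if_neg (Ne.symm hk), mul_zero, zero_mul]) (by simp)]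
    exact Finset.sum_congr rfl fun y _ => by rw [ker_blk, if_pos rfl]
  rw [e, hs s (fun z => f z ^ 2), hs t (fun z => g z ^ 2)]
  refine (Finset.abs_sum_le_sum_abs _ _).trans ((Finset.sum_le_sum fun j _ =>
    h j (sj j) (tj j) (fun b => f (b, j)) (fun y => g (y, j))).trans ?_)
  simp only [mul_assoc, ← Finset.mul_sum]
  exact mul_le_mul_of_nonneg_left (Real.sum_sqrt_mul_sqrt_le _
    (fun j => Finset.sum_nonneg fun z _ => sq_nonneg _)
    (fun j => Finset.sum_nonneg fun z _ => sq_nonneg _)) hc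

lemma opBd_rowBlk {L : Fin r → GOp T Unit Unit} {c : ℝ} (hc : 0 ≤ c)
    (h : ∀ j, OpBd (k1 (L j)) c) : OpBd (rowBlk L).ker (r * c) := by
  intro s t f g
  set sj : Finset Ω := s.image Prod.fst with hsj
  set tj : Fin r → Finset Ω := fun j => (t.filter fun z => z.2 = j).image Prod.fst with htj
  have i : ∀ j : Fin r,
      Set.InjOn (Prod.fst : Ω × Fin r → Ω) (t.filter fun z => z.2 = j : Finset (Ω × Fin r)) :=
    fun j a ha b hb e => Prod.ext e (by
      rw [(Finset.mem_filter.1 (Finset.mem_coe.1 ha)).2, (Finset.mem_filter.1 (Finset.mem_coe.1 hb)).2])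
  have i' : Set.InjOn (Prod.fst : Ω × Unit → Ω) s := fun a _ b _ e => Prod.ext e (Subsingleton.elim _ _)
  have ht : ∀ F : Ω × Fin r → ℝ, ∑ z ∈ t, F z = ∑ j, ∑ b ∈ tj j, F (b, j) := fun F => by
    rw [← Finset.sum_fiberwise t Prod.snd F]
    refine Finset.sum_congr rfl fun j _ => ?_
    rw [htj, Finset.sum_image (i j)]
    exact Finset.sum_congr rfl fun z hz => by rw [← (Finset.mem_filter.1 hz).2]
  have e : ∑ x ∈ s, ∑ y ∈ t, f x * (rowBlk L).ker x y * g y
      = ∑ j, ∑ b ∈ sj, ∑ y ∈ tj j, f (b, ()) * k1 (L j) b y * g (y, j) := by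
    rw [Finset.sum_comm (γ := Fin r), hsj, Finset.sum_image i']
    refine Finset.sum_congr rfl fun x _ => ?_
    rw [ht]
    exact Finset.sum_congr rfl fun j _ => Finset.sum_congr rfl fun y _ => by
      rw [show x = (x.1, ()) from rfl, ker_rowBlk]
  rw [e]
  refine (Finset.abs_sum_le_sum_abs _ _).trans ?_
  have hb : ∀ j ∈ (Finset.univ : Finset (Fin r)),
      |∑ b ∈ sj, ∑ y ∈ tj j, f (b, ()) * k1 (L j) b y * g (y, j)|
        ≤ c * Real.sqrt (∑ x ∈ s, f x ^ 2) * Real.sqrt (∑ z ∈ t, g z ^ 2) := fun j _ => by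
    refine (h j sj (tj j) (fun b => f (b, ())) fun y => g (y, j)).trans ?_
    rw [hsj, Finset.sum_image i', ht (fun z => g z ^ 2)]
    refine mul_le_mul_of_nonneg_left (Real.sqrt_le_sqrt ?_) (by positivity)
    exact Finset.single_le_sum (f := fun j => ∑ y ∈ tj j, g (y, j) ^ 2)
      (fun j _ => Finset.sum_nonneg fun y _ => sq_nonneg _) (Finset.mem_univ j)
  refine (Finset.sum_le_sum hb).trans (le_of_eq ?_)
  simp [mul_assoc]

end Vale.Agent.P078.T3.Walk
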