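import Mathlib
import Vale.Agent.P078.Type3.Walk.Schur
import Vale.Agent.P078.Type3.Specs

/-! The weighted squares of a product with a block of first records. -/

noncomputable section

open scoped ComplexOrder
open Classical

set_option linter.unusedSectionVars false

namespace Vale.Agent.P078.T3.Walk

open Vale.Agent.P078.T3.Comp (lsum)

universe u v

variable {M : Type u} [CStarAlgebra M] [PartialOrder M] [StarOrderedRing M]
  {Ω : Type v} [TopologicalSpace Ω] [CompactSpace Ω] [T2Space Ω] {T : SMasa M Ω}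
  {ι κ : Type}

/-- the density of a pair of points of one orbit -/
def pd (T : SMasa M Ω) (b y : Ω) : ℝ :=
  if h : ∃ g : GElt T, g.ran b = 1 ∧ g.toDom b = y then h.choose.dens b else 0

lemma pd_nonneg (b y : Ω) : 0 ≤ pd T b y := by
  unfold pd
  split_ifs with h
  · exact (h.choose.dens_pos b).le
  · exact le_rfl

lemma pd_eq (hd : DensSpec T) {b y : Ω} {g : GElt T} (hg : g.ran b = 1) (hy : g.toDom b = y) :
    pd T b y = g.dens b := by
  have h : ∃ g : GElt T, g.ran b = 1 ∧ g.toDom b = y := ⟨g, hg, hy⟩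
  rw [pd, dif_pos h]
  exact hd _ _ b h.choose_spec.1 hg (h.choose_spec.2.trans hy.symm)

lemma exists_of_ker_ne {S : GOp T ι κ} {x : Ω × ι} {y : Ω × κ} (h : S.ker x y ≠ 0) :
    ∃ g : GElt T, g.ran x.1 = 1 ∧ g.toDom x.1 = y.1 := by
  by_contra hc
  refine h (List.sum_eq_zero fun v hv => ?_)
  obtain ⟨t, -, rfl⟩ := List.mem_map.1 hv
  split_ifs with he
  · rcases idem_zero_or_one t.g.ran_idem x.1 with h0 | h0
    · rw [h0, mul_zero]
    · exact absurd ⟨t.g, h0, he.2.2⟩ hc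
  · rfl

/-- the weighted square through the kernel -/
theorem wdiag_eq_sum [Fintype κ] (hd : DensSpec T) (S : GOp T ι κ) (Λ : C(Ω, ℝ)) (b : Ω) (i : ι)
    {u : Finset Ω} (hu : FormKer.reach S b ⊆ u) :
    ((S.mul (GOp.diag fun _ => Λ)).wgt.mul S.tp).ker (b, i) (b, i)
      = ∑ z ∈ u ×ˢ (Finset.univ : Finset κ), Λ z.1 * pd T b z.1 * S.ker (b, i) z ^ 2 := by
  have key : ∀ f : Ω × κ → ℝ, ∑ z ∈ u ×ˢ (Finset.univ : Finset κ), S.ker (b, i) z * f z
      = lsum S fun s => (if s.row = i then s.coef b * s.g.ran b * f (s.g.toDom b, s.col) else 0) :=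
    fun f => by
      simp only [Comp.ker_eq, mul_comm _ (f _), ← Comp.lsum_mul]
      rw [← Comp.lsum_finset]
      refine Comp.lsum_congr fun s hs => ?_
      rw [Finset.sum_eq_single (s.g.toDom b, s.col)]
      · by_cases h : s.row = i <;> simp [Comp.ent, h]
      · intro z _ hz
        rw [Comp.ent, if_neg, mul_zero]
        rintro ⟨-, h2, h3⟩
        exact hz (Prod.ext h3.symm h2.symm)
      · intro h
        exact absurd (Finset.mem_product.2 ⟨hu (FormKer.mem_reach hs b), Finset.mem_univ _⟩) h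
  refine Eq.trans ?_ ((key fun z => Λ z.1 * pd T b z.1 * S.ker (b, i) z).symm.trans
    (Finset.sum_congr rfl fun z _ => by ring))
  rw [Comp.wdiag_eq]
  refine Comp.lsum_congr fun s _ => ?_
  by_cases hr : s.row = i
  swap
  · rw [if_neg hr]
    exact Comp.lsum_eq_zero fun t _ => if_neg fun h => hr h.1
  rw [if_pos hr]
  rcases idem_zero_or_one s.g.ran_idem b with h0 | h0
  · rw [h0, mul_zero, zero_mul]
    exact Comp.lsum_eq_zero fun t _ => if_neg fun h => zero_ne_one h.2.2.2.1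
  rw [pd_eq hd h0 rfl, h0, mul_one, Comp.ker_eq, ← mul_assoc, ← Comp.lsum_mul]
  refine Comp.lsum_congr fun t _ => ?_
  simp only [Comp.ent]
  by_cases hc : t.row = i ∧ t.col = s.col ∧ t.g.toDom b = s.g.toDom b
  · rw [if_pos hc]
    rcases idem_zero_or_one t.g.ran_idem b with h1 | h1
    · simp [h1]
    · rw [if_pos ⟨hr, hc.1, hc.2.1.symm, trivial, h1, hc.2.2.symm⟩, h1]
      ring
  · rw [if_neg hc, mul_zero, if_neg]
    rintro ⟨-, h2, h3, -, -, h6⟩
    exact hc ⟨h2, h3.symm, h6.symm⟩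

variable {r : ℕ}

/-- a product with a block of first records does not increase the weighted squares much -/
theorem wdiag_mul_blk (hd : DensSpec T) (L : Fin r → GOp T Unit Unit) (Λ : C(Ω, ℝ))
    (ψ : Fin r → C(Ω, ℝ)) {β : ℝ} (hβ : 0 ≤ β) (hΛ : ∀ a, 0 ≤ Λ a) (hψ : ∀ j a, 0 < ψ j a)
    (hL : ∀ j, ∀ t ∈ L j, 0 ≤ t.coef)
    (hrow : ∀ j x, lsum (L j) (fun t => t.coef x * t.g.ran x
      * (t.g.dens x * (Λ (t.g.toDom x) * ψ j (t.g.toDom x)))) ≤ Λ x * ψ j x)
    (hcol : ∀ j y (s : Finset Ω), ∑ x ∈ s, k1 (L j) x y * ψ j x ≤ β * ψ j y)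
    (Z : GOp T (Fin r) (Fin r)) (i : Fin r) (b : Ω) :
    (((Z.mul (blk L)).mul (GOp.diag fun _ => Λ)).wgt.mul (Z.mul (blk L)).tp).ker (b, i) (b, i)
      ≤ β * ((Z.mul (GOp.diag fun _ => Λ)).wgt.mul Z.tp).ker (b, i) (b, i) := by
  rw [wdiag_eq_sum hd (Z.mul (blk L)) Λ b i (Finset.Subset.refl _),
    wdiag_eq_sum hd Z Λ b i (Finset.Subset.refl _), Finset.sum_product_right,
    Finset.sum_product_right, Finset.mul_sum]
  set Y := FormKer.reach (Z.mul (blk L)) b with hY
  set X := FormKer.reach Z b with hX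
  refine Finset.sum_le_sum fun j _ => ?_
  set z : Ω → ℝ := fun x => Z.ker (b, i) (x, j) with hz
  have hk : ∀ x y, 0 ≤ k1 (L j) x y := k1_nonneg (hL j)
  have hw : ∀ y, 0 ≤ Λ y * pd T b y := fun y => mul_nonneg (hΛ y) (pd_nonneg b y)
  have hcs : ∀ y, (∑ x ∈ X, z x * k1 (L j) x y) ^ 2
      ≤ β * ψ j y * ∑ x ∈ X, z x ^ 2 * k1 (L j) x y / ψ j x := by
    intro y
    refine (Finset.sum_sq_le_sum_mul_sum_of_sq_le_mul X (f := fun x => k1 (L j) x y * ψ j x)
      (g := fun x => z x ^ 2 * k1 (L j) x y / ψ j x) (fun x _ => mul_nonneg (hk x y) (hψ j x).le)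
      (fun x _ => div_nonneg (mul_nonneg (sq_nonneg _) (hk x y)) (hψ j x).le)
      (fun x _ => le_of_eq ?_)).trans (mul_le_mul_of_nonneg_right (hcol j y X)
        (Finset.sum_nonneg fun x _ => div_nonneg (mul_nonneg (sq_nonneg _) (hk x y)) (hψ j x).le))
    have := (hψ j x).ne'
    field_simp
  simp only [ker_mul_blk]
  refine (Finset.sum_le_sum fun y _ => mul_le_mul_of_nonneg_left (hcs y) (hw y)).trans ?_
  simp only [Finset.mul_sum]
  rw [Finset.sum_comm]
  refine Finset.sum_le_sum fun x _ => ?_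
  by_cases h0 : z x = 0
  · simp only [h0, zero_pow two_ne_zero, zero_mul, zero_div, mul_zero, Finset.sum_const_zero]
    exact mul_nonneg hβ (mul_nonneg (hw x) (sq_nonneg _))
  obtain ⟨g, hg, hgx⟩ := exists_of_ker_ne h0
  simp only at hg hgx
  have hp : ∀ y, 0 ≤ ψ j y * (Λ y * pd T b y) := fun y => mul_nonneg (hψ j y).le (hw y)
  have h1 : ∑ y ∈ Y, k1 (L j) x y * (ψ j y * (Λ y * pd T b y)) ≤ g.dens b * (Λ x * ψ j x) := by
    refine (k1_sum_le (hL j) hp x Y).trans
      (le_trans ?_ (mul_le_mul_of_nonneg_left (hrow j x) (g.dens_pos b).le))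
    rw [← Comp.lsum_mul]
    refine le_of_eq (Comp.lsum_congr fun t _ => ?_)
    rcases idem_zero_or_one t.g.ran_idem x with h2 | h2
    · simp [h2]
    have hr : (g.mul t.g).ran b = 1 := by
      show g.ran b * t.g.ran (g.toDom b) = 1
      rw [hg, hgx, h2, mul_one]
    rw [show t.g.toDom x = (g.mul t.g).toDom b by rw [← hgx]; rfl, pd_eq hd hr rfl]
    show _ * (_ * (_ * (g.dens b * t.g.dens (g.toDom b)))) = _
    rw [hgx]
    ring
  calc ∑ y ∈ Y, Λ y * pd T b y * (β * ψ j y * (z x ^ 2 * k1 (L j) x y / ψ j x))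
      = β * (z x ^ 2 / ψ j x) * ∑ y ∈ Y, k1 (L j) x y * (ψ j y * (Λ y * pd T b y)) := by
        rw [Finset.mul_sum]
        exact Finset.sum_congr rfl fun y _ => by ring
    _ ≤ β * (z x ^ 2 / ψ j x) * (g.dens b * (Λ x * ψ j x)) :=
        mul_le_mul_of_nonneg_left h1 (mul_nonneg hβ (div_nonneg (sq_nonneg _) (hψ j x).le))
    _ = _ := by
        rw [pd_eq hd hg hgx]
        have := (hψ j x).ne'
        simp only [hz]
        field_simp

end Vale.Agent.P078.T3.Walk
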