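import Mathlib
import Vale.Agent.P078.Type3.Walk.Weighted

/-! The compensation of the high columns by the records, with all bounds. -/

noncomputable section

open scoped ComplexOrder
open Classical

set_option linter.unusedSectionVars false

namespace Vale.Agent.P078.T3.Walk

open Vale.Agent.P078.T3.Comp (lsum)

universe u v

variable {M : Type u} [CStarAlgebra M] [PartialOrder M] [StarOrderedRing M]
  {Ω : Type v} [TopologicalSpace Ω] [CompactSpace Ω] [T2Space Ω] {T : SMasa M Ω}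

/-- coefficients multiplied by a function of the row -/
def lmulC (f : C(Ω, ℝ)) (S : GOp T Unit Unit) : GOp T Unit Unit :=
  S.map fun t => { t with coef := f * t.coef }

lemma k1_lmulC (f : C(Ω, ℝ)) (S : GOp T Unit Unit) (b y : Ω) :
    k1 (lmulC f S) b y = f b * k1 S b y := by
  rw [k1_eq, k1_eq, lmulC, Comp.lsum_map, ← Comp.lsum_mul]
  refine Comp.lsum_congr fun t _ => ?_
  simp only [ContinuousMap.mul_apply]
  ring

lemma k1_cons (t : Term T Unit Unit) (S : GOp T Unit Unit) (b y : Ω) :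
    k1 (t :: S) b y = t.coef b * t.g.ran b * (if t.g.toDom b = y then 1 else 0) + k1 S b y := by
  rw [k1_eq, k1_eq, Comp.lsum_cons]

variable {κ : Type}

/-- a function of the term multiplying the coefficient -/
def maskC (f : GElt T → C(Ω, ℝ)) (S : GOp T Unit κ) : GOp T Unit κ :=
  S.map fun t => { t with coef := f t.g * t.coef }

lemma ker_maskC (f : GElt T → C(Ω, ℝ)) (S : GOp T Unit κ) (x : Ω × Unit) (y : Ω × κ) {v : ℝ}
    (h : ∀ g : GElt T, g.ran x.1 = 1 → g.toDom x.1 = y.1 → f g x.1 = v) :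
    (maskC f S).ker x y = v * S.ker x y := by
  rw [Comp.ker_eq, Comp.ker_eq, maskC, Comp.lsum_map, ← Comp.lsum_mul]
  refine Comp.lsum_congr fun t _ => ?_
  simp only [Comp.ent, true_and]
  by_cases hc : t.col = y.2 ∧ t.g.toDom x.1 = y.1
  · rw [if_pos hc, if_pos hc, ContinuousMap.mul_apply]
    rcases idem_zero_or_one t.g.ran_idem x.1 with h0 | h0
    · simp [h0]
    · rw [h t.g h0 hc.2]; ring
  · rw [if_neg hc, if_neg hc, mul_zero]

namespace W

variable (P : W T)

/-- the cutoff from above of an entry by the ratio of levels -/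
def below (g : GElt T) : C(Ω, ℝ) :=
  ⟨fun b => max 0 (min 1 (2 - P.Λ (g.toDom b) * g.dens b / (2 * P.G * P.Λp b))), by
    have hne : ∀ b, 2 * P.G * P.Λp b ≠ 0 := fun b =>
      (mul_pos (mul_pos two_pos P.G_pos) (P.Λp_pos b)).ne'
    fun_prop (disch := exact hne)⟩

lemma below_eq_one {g : GElt T} {b : Ω}
    (h : P.Λ (g.toDom b) * g.dens b ≤ 2 * P.G * P.Λp b) : P.below g b = 1 := by
  have h1 := (div_le_one (mul_pos (mul_pos two_pos P.G_pos) (P.Λp_pos b))).2 h
  show max 0 (min 1 (2 - _)) = (1 : ℝ)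
  rw [min_eq_left (by linarith), max_eq_right zero_le_one]

lemma le_of_below_ne {g : GElt T} {b : Ω} (h : P.below g b ≠ 0) :
    P.Λ (g.toDom b) * g.dens b ≤ 4 * P.G * P.Λp b := by
  have hpos := mul_pos (mul_pos two_pos P.G_pos) (P.Λp_pos b)
  by_contra hc
  refine h (max_eq_left ((min_le_right _ _).trans (sub_nonpos.2 ?_)))
  rw [le_div_iff₀ hpos]
  linarith [not_le.1 hc]

/-- the first records of the scaled walk are bounded by a half -/
theorem opBd_Csum (ψ : C(Ω, ℝ)) (hψ : ∀ a, 0 < ψ a) (hΛ : ∀ a, 0 ≤ P.Λ a) {β : ℝ}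
    (hβ : 4 * β ≤ P.G)
    (hsup : ∀ a, lsum P.N (fun u => u.coef a * u.g.ran a
      * (u.g.dens a * (P.Λ (u.g.toDom a) * ψ (u.g.toDom a)))) ≤ P.Λ a * ψ a)
    (n : ℕ) (hcol : ∀ y (s : Finset Ω), ∑ x ∈ s, k1 (P.Csum n) x y * ψ x ≤ β * ψ y) :
    OpBd (k1 (P.Csum n)) (1 / 2) := by
  have hG := P.G_pos
  refine opBd_mono ?_ (opBd_schur_weight (q := ψ) (p := ψ) (α := 1 / P.G) (β := β)
    (k1_nonneg (P.Csum_nonneg n)) hψ hψ (by positivity) (fun b t => ?_) hcol)
  · rw [Real.sqrt_le_iff, one_div_mul_eq_div, div_le_iff₀ hG]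
    exact ⟨by norm_num, by linarith⟩
  · refine (k1_sum_le (P.Csum_nonneg n) (fun y => (hψ y).le) b t).trans ?_
    have hp : 0 < P.G * P.Λp b := mul_pos hG (P.Λp_pos b)
    refine le_of_mul_le_mul_left ?_ hp
    have hV : ∀ a, 0 ≤ P.Λ a * ψ a := fun a => mul_nonneg (hΛ a) (hψ a).le
    calc P.G * P.Λp b * lsum (P.Csum n) (fun t => t.coef b * t.g.ran b * ψ (t.g.toDom b))
        ≤ lsum (P.Csum n) (fun t => t.coef b * t.g.ran b
            * (t.g.dens b * (P.Λ (t.g.toDom b) * ψ (t.g.toDom b)))) := by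
          rw [← Comp.lsum_mul]
          refine Comp.lsum_le fun t ht => ?_
          by_cases h0 : t.coef b = 0
          · simp [h0]
          have hc0 : (0 : ℝ) ≤ t.coef b := P.Csum_nonneg n t ht b
          have hr0 : (0 : ℝ) ≤ t.g.ran b := idem_nonneg t.g.ran_idem b
          have h1 := mul_le_mul_of_nonneg_right (P.Csum_level ht h0).le
            (mul_nonneg (mul_nonneg hc0 hr0) (hψ (t.g.toDom b)).le)
          linarith
      _ ≤ P.Λ b * ψ b := P.Csum_le hV hsup n b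
      _ ≤ P.Λp b * ψ b := mul_le_mul_of_nonneg_right (le_max_left _ _) (hψ b).le
      _ = _ := by field_simp

end W

/-- the records compensate the high columns of a row of blocks -/
theorem compensate (hd : DensSpec T) {r : ℕ} (Tm : GOp T Unit (Fin r)) (rows Λ : C(Ω, ℝ))
    (c ψ : Fin r → C(Ω, ℝ)) (P : Fin r → W T) {μ G Cc z β : ℝ} (n : ℕ)
    (hP : ∀ j, (P j).Λ = Λ ∧ (P j).μ = μ ∧ (P j).G = G)
    (hμ : 0 < μ) (hG : 2 ≤ G) (hz : 1 ≤ z) (hCc : 0 ≤ Cc) (hβ : 0 ≤ β) (hβG : 4 * β ≤ G) (hΛ : ∀ a, 0 ≤ Λ a)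
    (hlive : ∀ a, rows a = 1 → μ ≤ Λ a) (hrows : rows * rows = rows)
    (hc : ∀ j a, |c j a| ≤ Cc) (hcr : ∀ j a, rows a * c j a = c j a)
    (hψ : ∀ j a, 0 < ψ j a)
    (hTm : ∀ b y j, Tm.ker (b, ()) (y, j)
      = c j b * ((if b = y then 1 else 0) - k1 (P j).N b y))
    (hsup : ∀ j a, z * lsum (P j).N (fun u => u.coef a * u.g.ran a
      * (u.g.dens a * (Λ (u.g.toDom a) * ψ j (u.g.toDom a)))) ≤ Λ a * ψ j a)
    (hcol : ∀ j k, k ≤ n + 1 → ∀ y (s : Finset Ω), ∑ x ∈ s,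
      k1 (((P j).scale z (zero_le_one.trans hz)).Csum k) x y * ψ j x ≤ β * ψ j y) :
    ∃ (H C E : GOp T (Fin r) (Fin r)) (Tb Tres : GOp T Unit (Fin r)),
      OpBd H.ker 1 ∧ OpBd E.ker (z ^ (n + 1))⁻¹ ∧
      OpBd Tres.ker (r * (Cc * (z ^ (n + 1))⁻¹)) ∧
      (∀ x y, (Tm.add (Tm.mul H)).ker x y = Tb.ker x y + Tres.ker x y) ∧
      (∀ t ∈ Tb, ∀ b, t.coef b * t.g.ran b ≠ 0 →
        rows b = 1 ∧ Λ (t.g.toDom b) * t.g.dens b ≤ 2 * (2 * G) * Λ b) ∧
      (∀ x y, H.ker x y = C.ker x y + (H.mul C).ker x y + E.ker x y) ∧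
      ∀ (Z : GOp T (Fin r) (Fin r)) i b,
        (((Z.mul C).mul (GOp.diag fun _ => Λ)).wgt.mul (Z.mul C).tp).ker (b, i) (b, i)
          ≤ β * ((Z.mul (GOp.diag fun _ => Λ)).wgt.mul Z.tp).ker (b, i) (b, i) := by
  have hz0 : 0 < z := one_pos.trans_le hz
  have hzi : 0 ≤ (z ^ (n + 1))⁻¹ := (inv_pos.2 (pow_pos hz0 _)).le
  have hC : ∀ j k, k ≤ n + 1 → OpBd (k1 (((P j).scale z hz0.le).Csum k)) (1 / 2) := fun j k hk => by
    refine W.opBd_Csum ((P j).scale z hz0.le) (ψ j) (hψ j) ?_ (β := β) ?_ ?_ k (hcol j k hk)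
    · exact fun a => ((hP j).1 ▸ hΛ a : 0 ≤ (P j).Λ a)
    · exact le_of_le_of_eq hβG (hP j).2.2.symm
    · intro a
      show lsum ((P j).N.smul z) (fun u => u.coef a * u.g.ran a
        * (u.g.dens a * ((P j).Λ (u.g.toDom a) * ψ j (u.g.toDom a)))) ≤ (P j).Λ a * ψ j a
      rw [(hP j).1, GOp.smul, Comp.lsum_map]
      refine le_trans (le_of_eq ?_) (hsup j a)
      rw [← Comp.lsum_mul]
      refine Comp.lsum_congr fun u _ => ?_
      show z * u.coef a * _ * _ = _
      ring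
  have hsmall := fun j => (P j).small_of_scale hz n (hC j)
  set H := blk fun j => (P j).Hsum n with hH
  set Tres := rowBlk fun j => lmulC (-(c j)) ((P j).Dop n) with hTres
  set S : Fin r → GOp T Unit Unit := fun j =>
    lmulC (c j) (⟨(), (), 1, GElt.one T⟩ :: (P j).N.smul (-1)) with hS
  have hk : ∀ b y j, k1 (S j) b y = c j b * ((if b = y then 1 else 0) - k1 (P j).N b y) :=
    fun b y j => by
      rw [hS, k1_lmulC, k1_cons, k1_smul]
      by_cases h : b = y <;> simp [h, GElt.one, sub_eq_add_neg]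
  have hTmS : ∀ x y, Tm.ker x y = (rowBlk S).ker x y := fun x y => by
    rw [show x = (x.1, ()) from rfl, show y = (y.1, y.2) from rfl, hTm, ker_rowBlk, hk]
  set X : GOp T Unit (Fin r) := (Tm.add (Tm.mul H)).add (Tres.smul (-1)) with hX
  have hTm2 : ∀ b y j, (Tm.mul H).ker (b, ()) (y, j)
      = c j b * (k1 ((P j).Hsum n) b y - k1 ((P j).N.mul ((P j).Hsum n)) b y) := fun b y j => by
    rw [FormKer.mul_congr hTmS (fun _ _ => rfl), hH, ker_rowBlk_mul_blk, k1_mul]
    simp only [hS, lmulC, GOp.smul, Comp.lsum_map, Comp.lsum_cons]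
    rw [k1_mul, mul_sub, ← Comp.lsum_mul, sub_eq_add_neg, ← Comp.lsum_neg]
    simp only [GElt.one, ContinuousMap.mul_apply, ContinuousMap.one_apply, ContinuousMap.id_apply,
      ContinuousMap.smul_apply, smul_eq_mul, mul_one]
    refine congrArg _ (Comp.lsum_congr fun t _ => ?_)
    ring
  have hXk : ∀ b y j, X.ker (b, ()) (y, j) = c j b * ((if b = y then 1 else 0) - k1 (P j).N b y
      + (k1 ((P j).Hsum n) b y - k1 ((P j).N.mul ((P j).Hsum n)) b y)
      + k1 ((P j).Dop n) b y) := fun b y j => by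
    rw [hX, Comp.ker_gadd, Comp.ker_gadd, FormKer.ker_smul, hTm2, hTm, hTres, ker_rowBlk, k1_lmulC,
      ContinuousMap.neg_apply]
    ring
  set Q : W T := ⟨[], Λ, μ, G, hμ, hG, fun t ht => absurd ht List.not_mem_nil,
    fun t ht => absurd ht List.not_mem_nil⟩ with hQ
  set f : GElt T → C(Ω, ℝ) := fun g => rows * Q.below g with hf
  have hΛp : ∀ j b, (P j).Λp b = Q.Λp b := fun j b => by
    show max ((P j).Λ b) (P j).μ = max (Λ b) μ
    rw [(hP j).1, (hP j).2.1]
  refine ⟨H, blk fun j => (P j).Csum n, blk fun j => (P j).Eop n, maskC f X, Tres,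
    opBd_blk zero_le_one fun j => (hsmall j).1, opBd_blk hzi fun j => (hsmall j).2.2,
    opBd_rowBlk (mul_nonneg hCc hzi) fun j => opBd_dom hCc (fun b y => ?_) (hsmall j).2.1,
    ?_, ?_, ?_, ?_⟩
  · rw [k1_lmulC, ContinuousMap.neg_apply, abs_mul, abs_neg,
      abs_of_nonneg (k1_nonneg ((P j).Dop_nonneg n) b y)]
    exact mul_le_mul_of_nonneg_right (hc j b) (k1_nonneg ((P j).Dop_nonneg n) b y)
  · rintro ⟨b, ⟨⟩⟩ ⟨y, j⟩
    have e : X.ker (b, ()) (y, j) = (Tm.add (Tm.mul H)).ker (b, ()) (y, j)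
        - Tres.ker (b, ()) (y, j) := by
      rw [hX, Comp.ker_gadd _ (Tres.smul (-1)), FormKer.ker_smul]; ring
    suffices hm : (maskC f X).ker (b, ()) (y, j) = X.ker (b, ()) (y, j) by rw [hm, e]; ring
    by_cases hg : ∃ g : GElt T, g.ran b = 1 ∧ g.toDom b = y
    swap
    · have h0 : ∀ S : GOp T Unit (Fin r), S.ker (b, ()) (y, j) = 0 := fun S => by
        by_contra hne
        exact hg (exists_of_ker_ne hne)
      rw [h0, h0]
    obtain ⟨g, hg1, hg2⟩ := hg
    rw [ker_maskC f X (b, ()) (y, j) (v := f g b) fun g' h1 h2 => by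
      simp only [hf, ContinuousMap.mul_apply, W.below, ContinuousMap.coe_mk]
      rw [h2, hd g' g b h1 hg1 (h2.trans hg2.symm), hg2]]
    rcases idem_zero_or_one hrows b with hr | hr
    · have : c j b = 0 := by rw [← hcr j b, hr, zero_mul]
      rw [hXk, this, zero_mul, mul_zero]
    by_cases hlow : Λ y * g.dens b ≤ 2 * G * Q.Λp b
    · simp only [hf, ContinuousMap.mul_apply, hr, one_mul]
      rw [Q.below_eq_one (show Q.Λ (g.toDom b) * g.dens b ≤ _ by rw [hg2]; exact hlow), one_mul]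
    · have hhigh : (P j).High b y := fun g' h1 h2 => by
        rw [(hP j).1, (hP j).2.2, hΛp, hd g' g b h1 hg1 (h2.trans hg2.symm)]
        exact not_le.1 hlow
      have hby : b ≠ y := fun h => by
        have h2 := hhigh (GElt.one T) rfl h
        rw [(hP j).1, (hP j).2.2, hΛp, ← h] at h2
        simp only [GElt.one, ContinuousMap.one_apply, mul_one] at h2
        have h3 : Λ b ≤ Q.Λp b := le_max_left _ _
        linarith [mul_le_mul_of_nonneg_right (show (1 : ℝ) ≤ 2 * G by linarith) (Q.Λp_pos b).le]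
      have hx : X.ker (b, ()) (y, j) = 0 := by
        rw [hXk, if_neg hby, ← (P j).k1_high hhigh n]
        ring
      rw [hx, mul_zero]
  · intro t ht b hb
    obtain ⟨t0, -, rfl⟩ := List.mem_map.1 ht
    simp only [hf, ContinuousMap.mul_apply, mul_ne_zero_iff] at hb
    obtain ⟨⟨⟨hr, hbel⟩, -⟩, -⟩ := hb
    have hr1 := (idem_zero_or_one hrows b).resolve_left hr
    refine ⟨hr1, ?_⟩
    have h := Q.le_of_below_ne hbel
    have e : Q.Λp b = Λ b := max_eq_left (hlive b hr1)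
    rw [e] at h
    exact le_of_le_of_eq h (show 4 * G * Λ b = 2 * (2 * G) * Λ b by ring)
  · rintro ⟨b, i⟩ ⟨y, j⟩
    rw [hH, ker_blk, ker_blk, ker_blk, ker_blk_mul_blk]
    split_ifs
    · exact (P j).k1_fixed n b y
    · ring
  · intro Z i b
    refine wdiag_mul_blk hd (fun j => (P j).Csum n) Λ ψ hβ hΛ hψ
      (fun j => (P j).Csum_nonneg n) (fun j x => ?_) (fun j y s => ?_) Z i b
    · refine (P j).Csum_le (V := fun a => Λ a * ψ j a) (fun a => mul_nonneg (hΛ a) (hψ j a).le)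
        (fun a => le_trans ?_ (hsup j a)) n x
      refine le_mul_of_one_le_left (Comp.lsum_nonneg fun u hu => mul_nonneg
        (mul_nonneg ((P j).N_nonneg u hu a) (idem_nonneg u.g.ran_idem a))
        (mul_nonneg (u.g.dens_pos a).le (mul_nonneg (hΛ _) (hψ j _).le))) hz
    · refine le_trans (Finset.sum_le_sum fun x _ => mul_le_mul_of_nonneg_right ?_ (hψ j x).le)
        (hcol j n n.le_succ y s)
      rw [W.Csum, W.Csum, k1_range, k1_range]
      refine Finset.sum_le_sum fun k _ => ?_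
      rw [(P j).k1_Cop_scale hz0.le]
      exact le_mul_of_one_le_left (k1_nonneg ((P j).Cop_nonneg k) x y) (one_le_pow₀ hz)

end Vale.Agent.P078.T3.Walk
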